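import Mathlib

/-!
P092 (helper156): [U] of #2397: uniform quasi-invariance of the masses of the induced
representation.
-/

set_option linter.all false

open MeasureTheory Filter Topology

namespace Vale.Agent.P092.H156

/-- **[U].** `f v S` stands for the mass of `v` on `S`; `∫ f (c(g, x), S) dμ(x)` is the mass of `g`
in the induced representation. -/
theorem unif {E X Λ Γ : Type*} [Group E] [Group Λ] [Group Γ] [Countable Λ] [MeasurableSpace X]
    (μ : Measure X) [IsProbabilityMeasure μ] (act : E → X → X)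
    (hact : ∀ g h x, act (g * h) x = act g (act h x)) (hmp : ∀ g, MeasurePreserving (act g) μ μ)
    (c : E → X → Λ) (hcm : ∀ g v, MeasurableSet {x | c g x = v})
    (hc : ∀ g h x, c (g * h) x = c g (act h x) * c h x)
    (f : Λ → Set Γ → ℝ) (B : ℝ) (hf0 : ∀ v S, 0 ≤ f v S) (hfB : ∀ v S, f v S ≤ B)
    (hq : ∀ (A : Finset Λ) (ε : ℝ), 0 < ε → ∃ (F : Finset Γ) (C : ℝ), 0 ≤ C ∧
      ∀ v ∈ A, ∀ v' ∈ A, ∀ w S,
        f (v * w * v') S ≤ C * f w {x | ∃ a ∈ F, ∃ b ∈ F, a * x * b ∈ S} + ε)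
    (K : Set E) (hK : ∀ ε : ℝ, 0 < ε → ∃ A : Finset Λ, ∀ κ ∈ K, μ.real {x | c κ x ∉ A} ≤ ε)
    {ε : ℝ} (hε : 0 < ε) :
    ∃ (F : Finset Γ) (C : ℝ), 0 ≤ C ∧ ∀ κ ∈ K, ∀ κ' ∈ K, ∀ (g : E) (S : Set Γ),
      ∫ x, f (c (κ * g * κ') x) S ∂μ ≤
        C * ∫ x, f (c g x) {x | ∃ a ∈ F, ∃ b ∈ F, a * x * b ∈ S} ∂μ + ε := by
  classical
  have hB : 0 ≤ B := (hf0 1 ∅).trans (hfB 1 ∅)
  have hδ : 0 < ε / (4 * (B + 1)) := by positivity
  obtain ⟨A, hA⟩ := hK _ hδ
  obtain ⟨F, C, hC, hF⟩ := hq A (ε / 2) (half_pos hε)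
  refine ⟨F, C, hC, fun κ hκ κ' hκ' g S => ?_⟩
  obtain ⟨S', hS'⟩ : ∃ S' : Set Γ, S' = {x | ∃ a ∈ F, ∃ b ∈ F, a * x * b ∈ S} := ⟨_, rfl⟩
  rw [← hS']
  have hmeas : ∀ (h : E) (T : Set Γ), Measurable fun x => f (c h x) T := by
    intro h T
    letI : MeasurableSpace Λ := ⊤
    have h1 : Measurable (c h) := measurable_to_countable' fun v => hcm h v
    exact (measurable_from_top (f := fun v => f v T)).comp h1
  have hint : ∀ (h : E) (T : Set Γ), Integrable (fun x => f (c h x) T) μ := by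
    intro h T
    refine Integrable.of_bound (hmeas h T).aestronglyMeasurable B (Eventually.of_forall fun x => ?_)
    rw [Real.norm_eq_abs, abs_of_nonneg (hf0 _ _)]
    exact hfB _ _
  have hAm : ∀ h : E, MeasurableSet {x | c h x ∉ A} := by
    intro h
    have h1 : {x | c h x ∉ A} = (⋃ v ∈ A, {x | c h x = v})ᶜ := by
      ext x; simp
    rw [h1]
    exact (Finset.measurableSet_biUnion _ fun v _ => hcm h v).compl
  -- the bad set
  obtain ⟨Z, hZ⟩ : ∃ Z : Set X, Z = {x | c κ' x ∉ A} ∪ (act (g * κ')) ⁻¹' {x | c κ x ∉ A} :=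
    ⟨_, rfl⟩
  have hZm : MeasurableSet Z := by
    rw [hZ]
    exact (hAm κ').union ((hmp _).measurable (hAm κ))
  have hZr : μ.real Z ≤ 2 * (ε / (4 * (B + 1))) := by
    rw [hZ]
    refine (measureReal_union_le _ _).trans ?_
    have h1 : μ.real (act (g * κ') ⁻¹' {x | c κ x ∉ A}) = μ.real {x | c κ x ∉ A} := by
      rw [Measure.real, (hmp (g * κ')).measure_preimage (hAm κ).nullMeasurableSet, Measure.real]
    rw [h1]
    linarith [hA κ hκ, hA κ' hκ']
  have hpt : ∀ x, f (c (κ * g * κ') x) S ≤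
      C * f (c g (act κ' x)) S' + ε / 2 + Z.indicator (fun _ => B) x := by
    intro x
    by_cases hx : x ∈ Z
    · rw [Set.indicator_of_mem hx]
      have h1 := hfB (c (κ * g * κ') x) S
      have h2 := mul_nonneg hC (hf0 (c g (act κ' x)) S')
      linarith
    · rw [Set.indicator_of_notMem hx, add_zero]
      rw [hZ, Set.mem_union, not_or] at hx
      have h1 : c κ' x ∈ A := not_not.1 hx.1
      have h2 : c κ (act (g * κ') x) ∈ A := not_not.1 hx.2
      have h3 : c (κ * g * κ') x = c κ (act (g * κ') x) * c g (act κ' x) * c κ' x := by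
        rw [mul_assoc, hc, hc, mul_assoc]
      rw [h3, hS']
      exact hF _ h2 _ h1 _ S
  have hi1 : Integrable (fun x => f (c g (act κ' x)) S') μ :=
    (hmp κ').integrable_comp_of_integrable (hint g S')
  have hi2 : ∫ x, f (c g (act κ' x)) S' ∂μ = ∫ x, f (c g x) S' ∂μ := by
    have h1 := (hmp κ').map_eq
    have h2 : ∫ x, f (c g x) S' ∂μ = ∫ x, f (c g x) S' ∂(μ.map (act κ')) := by rw [h1]
    rw [h2, integral_map (hmp κ').measurable.aemeasurable]
    rw [h1]
    exact (hmeas g S').aestronglyMeasurable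
  have hi3 : Integrable (fun x => Z.indicator (fun _ => B) x) μ :=
    (integrable_const B).indicator hZm
  calc ∫ x, f (c (κ * g * κ') x) S ∂μ
      ≤ ∫ x, (C * f (c g (act κ' x)) S' + ε / 2 + Z.indicator (fun _ => B) x) ∂μ :=
        integral_mono (hint _ _) (((hi1.const_mul C).add (integrable_const _)).add hi3) hpt
    _ = C * ∫ x, f (c g x) S' ∂μ + ε / 2 + μ.real Z * B := by
        have j1 : Integrable (fun x => C * f (c g (act κ' x)) S' + ε / 2) μ :=
          (hi1.const_mul C).add (integrable_const _)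
        rw [integral_add j1 hi3, integral_add (hi1.const_mul C) (integrable_const _),
          integral_const_mul, hi2, integral_const, integral_indicator hZm, setIntegral_const]
        simp
    _ ≤ _ := by
        have h4 : μ.real Z * B ≤ 2 * (ε / (4 * (B + 1))) * B := mul_le_mul_of_nonneg_right hZr hB
        have h5 : 2 * (ε / (4 * (B + 1))) * B ≤ ε / 2 := by
          have h6 : 2 * (ε / (4 * (B + 1))) * B = ε / 2 * (B / (B + 1)) := by
            field_simp; ring
          rw [h6]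
          have h7 : B / (B + 1) ≤ 1 := by
            rw [div_le_one (by positivity)]; linarith
          nlinarith
        linarith

end Vale.Agent.P092.H156
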