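import Vale.Agent.P092.H156.Fib
import Vale.Agent.P092.H156.Unif
import Vale.Agent.P092.H85.CD
import Vale.Agent.P092.H761.RankDefs

/-!
P092 (helper156): the masses of the induced representation are the integrals of the masses of the
fibres; uniform quasi-invariance for the induced representation.
-/

set_option linter.all false

open scoped InnerProductSpace ENNReal
open MeasureTheory Filter Topology ContinuousLinearMap

namespace Vale.Agent.P092.H156

open Vale.Agent.P092.H160 Vale.Agent.P092.H553 Vale.Agent.P092.H432 Vale.Agent.P092.H790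
open Vale.Agent.P092.H761

variable {Γ Λ ι D : Type} [Group Γ] [Group Λ] [Fintype ι] [Group D] {t : ℝ}
  {R : Λ → (Ell2 (Γ × ι) →L[ℂ] Ell2 (Γ × ι))}

theorem ind_eq_i1 (P : Γ → Prop) : H538.ind P = i1 {g | P g} := by
  classical
  funext g
  by_cases h : P g
  · rw [i1, Set.indicator_of_mem (show g ∈ {g | P g} from h)]
    simp [H538.ind, h]
  · rw [i1, Set.indicator_of_notMem (show g ∉ {g | P g} from h)]
    simp [H538.ind, h]

/-- The mass as a square norm, for indicator functions. -/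
theorem mp_i1_ap (S : Set Γ) (ξ : Ell2 (Γ × ι)) (x : Γ × ι) :
    (mp ι (i1 S) ξ : Ell2 (Γ × ι)) x = (i1 S x.1 : ℂ) * ξ x :=
  mo_apply (F := fun x : Γ × ι => i1 S x.1) (C := 1) (fun x => abs_i1_le S _) ξ x

theorem mp_i1_idem (S : Set Γ) (ξ : Ell2 (Γ × ι)) : mp ι (i1 S) (mp ι (i1 S) ξ) = mp ι (i1 S) ξ := by
  ext x
  rw [mp_i1_ap, mp_i1_ap]
  by_cases h : x.1 ∈ S <;> simp [i1, h]

theorem massR_i1 (w : Λ) (S : Set Γ) : massR R w (i1 S) = ms (R w) S := by
  unfold massR ms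
  refine Finset.sum_congr rfl fun i _ => ?_
  rw [← mp_i1_idem, ← inner_mp_left (abs_i1_le S), inner_self_eq_norm_sq_to_K, mp_i1_idem]
  norm_cast

/-- **The mass of the induced representation is the integral of the masses of the fibres.** -/
theorem mass_int [Countable Λ] (d : CData D Λ) (hR : ARep t R) (g : D) (F : Γ → ℝ)
    (e : ι → Lp (Ell2 (Γ × ι)) 2 d.μ) (he : ∀ i, ⇑(e i) =ᵐ[d.μ] fun _ => (ep i : Ell2 (Γ × ι))) :
    ∑ i, (⟪Ri d R g (e i), (mp ι F).compLpL 2 d.μ (Ri d R g (e i))⟫_ℂ).re =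
      ∫ x, massR R (d.c g x) F ∂d.μ := by
  classical
  have hb := hR.opNorm_le
  have hmeas : ∀ i : ι, Measurable fun x =>
      (⟪R (d.c g x) (ep i), mp ι F (R (d.c g x) (ep i))⟫_ℂ).re := by
    intro i
    letI : MeasurableSpace Λ := ⊤
    have h1 : Measurable (d.c g) := measurable_to_countable' fun v => d.c_meas g v
    exact (measurable_from_top
      (f := fun v => (⟪R v (ep i), mp ι F (R v (ep i))⟫_ℂ).re)).comp h1
  have hbd : ∀ (i : ι) (x : d.X), ‖(⟪R (d.c g x) (ep i), mp ι F (R (d.c g x) (ep i))⟫_ℂ).re‖ ≤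
      ‖mp ι F‖ := by
    intro i x
    have h1 : ‖R (d.c g x) (ep i)‖ ≤ 1 := (hR.norm_le _ _).trans (by rw [ep, norm_dl])
    rw [Real.norm_eq_abs]
    refine (Complex.abs_re_le_norm _).trans ((norm_inner_le_norm _ _).trans ?_)
    have h2 := (mp ι F).le_opNorm (R (d.c g x) (ep i))
    have h3 := norm_nonneg (mp ι F)
    have h4 := norm_nonneg (R (d.c g x) (ep i))
    have h5 := norm_nonneg (mp ι F (R (d.c g x) (ep i)))
    nlinarith
  have hint : ∀ i : ι, Integrable (fun x =>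
      (⟪R (d.c g x) (ep i), mp ι F (R (d.c g x) (ep i))⟫_ℂ).re) d.μ := fun i =>
    Integrable.of_bound (hmeas i).aestronglyMeasurable _ (Eventually.of_forall fun x => hbd i x)
  unfold massR
  rw [integral_finsetSum _ fun i _ => hint i]
  refine Finset.sum_congr rfl fun i _ => ?_
  have h1 : ⟪Ri d R g (e i), (mp ι F).compLpL 2 d.μ (Ri d R g (e i))⟫_ℂ =
      ∫ x, ⟪R (d.c g (d.act g⁻¹ x)) (ep i), mp ι F (R (d.c g (d.act g⁻¹ x)) (ep i))⟫_ℂ ∂d.μ := by
    rw [L2.inner_def]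
    refine integral_congr_ae ?_
    filter_upwards [ri_ae d hb g (e i), ae_comp (d.mp g⁻¹) (he i),
      (mp ι F).coeFn_compLpL (p := 2) (μ := d.μ) (Ri d R g (e i))] with x h1 h2 h3
    rw [h3, h1, h2]
  have h2 : ∫ x, ⟪R (d.c g (d.act g⁻¹ x)) (ep i), mp ι F (R (d.c g (d.act g⁻¹ x)) (ep i))⟫_ℂ ∂d.μ =
      ∫ x, ⟪R (d.c g x) (ep i), mp ι F (R (d.c g x) (ep i))⟫_ℂ ∂d.μ := by
    have h3 := (d.mp g⁻¹).map_eq
    have hm : AEStronglyMeasurable
        (fun x => ⟪R (d.c g x) (ep i), mp ι F (R (d.c g x) (ep i))⟫_ℂ) (d.μ.map (d.act g⁻¹)) := by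
      letI : MeasurableSpace Λ := ⊤
      have h1 : Measurable (d.c g) := measurable_to_countable' fun v => d.c_meas g v
      exact ((measurable_from_top
        (f := fun v => ⟪R v (ep i), mp ι F (R v (ep i))⟫_ℂ)).comp h1).aestronglyMeasurable
    rw [← integral_map (d.mp g⁻¹).measurable.aemeasurable hm, h3]
  rw [h1, h2]
  have hintC : Integrable (fun x => ⟪R (d.c g x) (ep i), mp ι F (R (d.c g x) (ep i))⟫_ℂ) d.μ := by
    refine Integrable.of_bound (C := ‖mp ι F‖) ?_ (Eventually.of_forall fun x => ?_)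
    · letI : MeasurableSpace Λ := ⊤
      have h1 : Measurable (d.c g) := measurable_to_countable' fun v => d.c_meas g v
      exact ((measurable_from_top
        (f := fun v => ⟪R v (ep i), mp ι F (R v (ep i))⟫_ℂ)).comp h1).aestronglyMeasurable
    · have h1 : ‖R (d.c g x) (ep i)‖ ≤ 1 := (hR.norm_le _ _).trans (by rw [ep, norm_dl])
      refine (norm_inner_le_norm _ _).trans ?_
      have h2 := (mp ι F).le_opNorm (R (d.c g x) (ep i))
      have h3 := norm_nonneg (mp ι F)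
      have h4 := norm_nonneg (R (d.c g x) (ep i))
      have h5 := norm_nonneg (mp ι F (R (d.c g x) (ep i)))
      nlinarith
  exact (integral_re hintC).symm

/-- uniform quasi-invariance for the integrals of the fibre masses -/
theorem unif_int [Countable Λ] [DecidableEq ι] (d : CData D Λ) (hR : ARep t R) (K : Set D)
    (hK : ∀ ε : ℝ, 0 < ε → ∃ A : Finset Λ, ∀ κ ∈ K, d.μ.real {x | d.c κ x ∉ A} ≤ ε)
    {ε : ℝ} (hε : 0 < ε) :
    ∃ (F : Finset Γ) (C : ℝ), 0 ≤ C ∧ ∀ κ ∈ K, ∀ κ' ∈ K, ∀ (g : D) (S : Γ → Prop),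
      ∫ x, massR R (d.c (κ * g * κ') x) (H538.ind S) ∂d.μ ≤
        C * ∫ x, massR R (d.c g x)
          (H538.ind fun y => ∃ a ∈ F, ∃ b ∈ F, S (a * y * b)) ∂d.μ + ε := by
  obtain ⟨F, C, hC, h⟩ := unif d.μ d.act d.act_mul d.mp d.c d.c_meas d.c_mul
    (fun v (S : Set Γ) => ms (R v) S) (Fintype.card ι) (fun v S => ms_nonneg _ _)
    (fun v S => ms_le hR v S) (fun A ε hε => fib_quasi hR A hε) K hK hε
  refine ⟨F, C, hC, fun κ hκ κ' hκ' g S => ?_⟩
  have h1 := h κ hκ κ' hκ' g {y | S y}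
  simp only [ind_eq_i1, massR_i1]
  exact h1

end Vale.Agent.P092.H156
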