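import Vale.Agent.P092.H156.FO

/-!
P092 (helper156), team A: the integral identity
`∫ ⟪a x ζ, b x ζ'⟫ = ip a b * ⟪ζ, ζ'⟫` for all vectors.
-/

set_option linter.all false

open scoped InnerProductSpace Topology ENNReal
open Filter ContinuousLinearMap MeasureTheory
open Vale.Agent.P092.H160

namespace Vale.Agent.P092.H156.Sm

section int

variable {Γ Λ G H K : Type} [Group Γ] [Group Λ] [Group G] [Group H] [Countable Γ]
  [TopologicalSpace G] [TopologicalSpace H] [IsTopologicalGroup G] [IsTopologicalGroup H]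
  [MeasurableSpace G] [BorelSpace G] [SecondCountableTopology G]
  [NormedAddCommGroup K] [InnerProductSpace ℂ K] [CompleteSpace K]
  {ρ : Γ →* (K →L[ℂ] K)} {V : Λ →* (K →L[ℂ] K)} {ω : K} {ι : Γ →* G} {κ : Λ →* H}
  {μ : Measure G} {a b : G → K →L[ℂ] K}

/-- In a total frame `V` is a regular representation. -/
theorem TFrm.regV (h : TFrm ρ V ω) : RegRep V ω where
  adj := h.adj
  norm_one := h.reg.norm_one
  inner_zero := h.ort
  total := h.total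

theorem TFrm.dense (h : TFrm ρ V ω) :
    (Submodule.span ℂ (Set.range fun v => V v ω)).topologicalClosure = ⊤ := by
  rw [Submodule.topologicalClosure_eq_top_iff, Submodule.eq_bot_iff]
  intro u hu
  refine h.total u fun v => ?_
  rw [Submodule.mem_orthogonal] at hu
  exact hu _ (Submodule.subset_span ⟨v, rfl⟩)

/-- The fields `a` and `b` are orthogonal in the sense of (F1). -/
def Ort (V : Λ →* (K →L[ℂ] K)) (ω : K) (μ : Measure G) (a b : G → K →L[ℂ] K) : Prop :=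
  ∀ v, v ≠ 1 → ip ω μ (fun x => a x * V v) b = 0

theorem Smo.ort [μ.IsMulLeftInvariant] [T1Space H] (h : Frm ρ V ω) (hd : DenseRange κ)
    (hC : ∀ v, v ≠ 1 → ¬ IsOpen ((Subgroup.centralizer {κ v} : Subgroup H) : Set H))
    (ha : Smo ι κ ρ V ω μ a) (hb : Smo ι κ ρ V ω μ b) : Ort V ω μ a b :=
  fun v hv => ip_rV_zero h hd ha hb v (hC v hv)

theorem memLp_V [μ.IsMulLeftInvariant] (h : Frm ρ V ω) (ha : Fd ι ρ a) (ha2 : L2 ω μ a) (v : Λ) :
    MemLp (fun x => a x (V v ω)) 2 μ := L2.rm h.reg ha ha2 (h.comm v)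

theorem memLp_span [μ.IsMulLeftInvariant] (h : Frm ρ V ω) (ha : Fd ι ρ a) (ha2 : L2 ω μ a)
    {ζ : K} (hζ : ζ ∈ Submodule.span ℂ (Set.range fun v => V v ω)) :
    MemLp (fun x => a x ζ) 2 μ := by
  induction hζ using Submodule.span_induction with
  | mem x hx => obtain ⟨v, rfl⟩ := hx; exact memLp_V h ha ha2 v
  | zero => simp only [map_zero]; exact MemLp.zero'
  | add x y _ _ hx hy => simp only [map_add]; exact hx.add hy
  | smul c x _ hx => simp only [map_smul]; exact hx.const_smul c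

theorem integral_V [μ.IsMulLeftInvariant] (h : Frm ρ V ω) (ha : Fd ι ρ a) (hb : Fd ι ρ b)
    (ha2 : L2 ω μ a) (hb2 : L2 ω μ b) (ho : Ort V ω μ a b) (v w : Λ) :
    ∫ x, ⟪a x (V v ω), b x (V w ω)⟫_ℂ ∂μ = ip ω μ a b * ⟪V v ω, V w ω⟫_ℂ := by
  have e1 : ∫ x, ⟪a x (V v ω), b x (V w ω)⟫_ℂ ∂μ =
      ip ω μ (fun x => a x * V v) (fun x => b x * V w) := rfl
  have hav : Fd ι ρ (fun x => a x * V v) := ha.rm h.reg (h.comm v)
  have hav2 : L2 ω μ (fun x => a x * V v) := L2.rm h.reg ha ha2 (h.comm v)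
  have e2 := ip_rV h hav hb hav2 hb2 w⁻¹
  rw [inv_inv] at e2
  have e3 : (fun x => a x * V v * V w⁻¹) = fun x => a x * V (v * w⁻¹) := by
    funext x; rw [map_mul, mul_assoc]
  rw [e1, ← e2, e3]
  by_cases hvw : v = w
  · subst hvw
    rw [mul_inv_cancel, map_one]
    have e4 : (fun x => a x * (1 : K →L[ℂ] K)) = a := by funext x; rw [mul_one]
    rw [e4, h.inner_left, h.inv_apply, inner_self_eq_norm_sq_to_K, h.norm_omega]
    simp
  · rw [ho _ (fun h1 => hvw (mul_inv_eq_one.mp h1)), h.orthonormal.2 hvw, mul_zero]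

theorem integral_span [μ.IsMulLeftInvariant] (h : Frm ρ V ω) (ha : Fd ι ρ a) (hb : Fd ι ρ b)
    (ha2 : L2 ω μ a) (hb2 : L2 ω μ b) (ho : Ort V ω μ a b) {ζ ζ' : K}
    (hζ : ζ ∈ Submodule.span ℂ (Set.range fun v => V v ω))
    (hζ' : ζ' ∈ Submodule.span ℂ (Set.range fun v => V v ω)) :
    ∫ x, ⟪a x ζ, b x ζ'⟫_ℂ ∂μ = ip ω μ a b * ⟪ζ, ζ'⟫_ℂ := by
  induction hζ using Submodule.span_induction with
  | mem y hy =>
    obtain ⟨v, rfl⟩ := hy
    induction hζ' using Submodule.span_induction with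
    | mem y hy => obtain ⟨w, rfl⟩ := hy; exact integral_V h ha hb ha2 hb2 ho v w
    | zero => simp only [map_zero, inner_zero_right, integral_zero, mul_zero]
    | add x y hx' hy' hx hy =>
      simp only [map_add, inner_add_right, mul_add]
      rw [integral_add (integrable_inner_of_memLp (memLp_V h ha ha2 v) (memLp_span h hb hb2 hx'))
        (integrable_inner_of_memLp (memLp_V h ha ha2 v) (memLp_span h hb hb2 hy')), hx, hy]
    | smul c x _ hx =>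
      simp only [map_smul, inner_smul_right]
      rw [integral_const_mul, hx]
      ring
  | zero => simp only [map_zero, inner_zero_left, integral_zero, mul_zero]
  | add x y hx' hy' hx hy =>
    simp only [map_add, inner_add_left, mul_add]
    rw [integral_add (integrable_inner_of_memLp (memLp_span h ha ha2 hx') (memLp_span h hb hb2 hζ'))
      (integrable_inner_of_memLp (memLp_span h ha ha2 hy') (memLp_span h hb hb2 hζ')), hx, hy]
  | smul c x _ hx =>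
    simp only [map_smul, inner_smul_left]
    rw [integral_const_mul, hx]
    ring

theorem lintegral_sq_span [μ.IsMulLeftInvariant] (h : Frm ρ V ω) (hb : Fd ι ρ b)
    (hb2 : L2 ω μ b) (ho : Ort V ω μ b b) {ζ : K}
    (hζ : ζ ∈ Submodule.span ℂ (Set.range fun v => V v ω)) :
    ∫⁻ x, ‖b x ζ‖ₑ ^ 2 ∂μ = nsq ω μ b * ‖ζ‖ₑ ^ 2 := by
  have h1 := integral_span h hb hb hb2 hb2 ho hζ hζ
  have hm := memLp_span h hb hb2 hζ
  rw [ip_self hb2, integral_inner_toLp hm hm, inner_self_eq_norm_sq_to_K,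
    inner_self_eq_norm_sq_to_K] at h1
  have h2 : ‖hm.toLp _‖ ^ 2 = (nsq ω μ b).toReal * ‖ζ‖ ^ 2 := by
    apply Complex.ofReal_injective
    push_cast
    exact h1
  rw [norm_sq_toLp, integral_sq_eq hm] at h2
  have h3 : ∫⁻ x, ‖b x ζ‖ₑ ^ 2 ∂μ ≠ ∞ := (lintegral_sq_lt_top hm).ne
  have h4 : nsq ω μ b * ‖ζ‖ₑ ^ 2 ≠ ∞ := ENNReal.mul_ne_top (nsq_lt_top hb2).ne (by simp)
  rw [← ENNReal.toReal_eq_toReal_iff' h3 h4, h2, ENNReal.toReal_mul, ENNReal.toReal_pow,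
    toReal_enorm]

/-- Fatou's lemma gives the bound for all vectors. -/
theorem lintegral_sq_le [μ.IsMulLeftInvariant] (h : TFrm ρ V ω) (hb : Fd ι ρ b)
    (hb2 : L2 ω μ b) (ho : Ort V ω μ b b) (ζ : K) :
    ∫⁻ x, ‖b x ζ‖ₑ ^ 2 ∂μ ≤ nsq ω μ b * ‖ζ‖ₑ ^ 2 := by
  have h0 : ζ ∈ closure ((Submodule.span ℂ (Set.range fun v => V v ω) : Submodule ℂ K) : Set K) := by
    have := h.dense
    rw [← Submodule.topologicalClosure_coe, this]
    trivial
  obtain ⟨u, hu, hlim⟩ := mem_closure_iff_seq_limit.1 h0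
  have hpt : ∀ x, Tendsto (fun n => ‖b x (u n)‖ₑ ^ 2) atTop (𝓝 (‖b x ζ‖ₑ ^ 2)) := fun x => by
    have h1 : Tendsto (fun n => b x (u n)) atTop (𝓝 (b x ζ)) :=
      ((b x).continuous.tendsto ζ).comp hlim
    exact (ENNReal.continuous_pow 2).continuousAt.tendsto.comp (h1.enorm)
  have hmeas : ∀ n, Measurable fun x => ‖b x (u n)‖ₑ ^ 2 := fun n =>
    ((hb.continuous_apply (u n)).enorm.measurable).pow_const 2
  have hlim2 : Tendsto (fun n => nsq ω μ b * ‖u n‖ₑ ^ 2) atTop (𝓝 (nsq ω μ b * ‖ζ‖ₑ ^ 2)) := by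
    refine ENNReal.Tendsto.const_mul ?_ (Or.inr (nsq_lt_top hb2).ne)
    exact (ENNReal.continuous_pow 2).continuousAt.tendsto.comp hlim.enorm
  calc ∫⁻ x, ‖b x ζ‖ₑ ^ 2 ∂μ = ∫⁻ x, liminf (fun n => ‖b x (u n)‖ₑ ^ 2) atTop ∂μ :=
        lintegral_congr fun x => (hpt x).liminf_eq.symm
    _ ≤ liminf (fun n => ∫⁻ x, ‖b x (u n)‖ₑ ^ 2 ∂μ) atTop := lintegral_liminf_le hmeas
    _ = liminf (fun n => nsq ω μ b * ‖u n‖ₑ ^ 2) atTop := by
        congr 1
        funext n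
        exact lintegral_sq_span h.toFrm hb hb2 ho (hu n)
    _ = nsq ω μ b * ‖ζ‖ₑ ^ 2 := hlim2.liminf_eq

theorem memLp_apply [μ.IsMulLeftInvariant] (h : TFrm ρ V ω) (hb : Fd ι ρ b)
    (hb2 : L2 ω μ b) (ho : Ort V ω μ b b) (ζ : K) : MemLp (fun x => b x ζ) 2 μ :=
  memLp_of_lintegral (hb.continuous_apply ζ).aestronglyMeasurable
    ((lintegral_sq_le h hb hb2 ho ζ).trans_lt
      (ENNReal.mul_lt_top (nsq_lt_top hb2) (by simp)))

/-- The vector field operator `ζ ↦ (x ↦ b x ζ)`. -/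
noncomputable def vf [μ.IsMulLeftInvariant] (h : TFrm ρ V ω) (hb : Fd ι ρ b)
    (hb2 : L2 ω μ b) (ho : Ort V ω μ b b) : K →L[ℂ] Lp K 2 μ :=
  LinearMap.mkContinuous
    { toFun := fun ζ => (memLp_apply h hb hb2 ho ζ).toLp (fun x => b x ζ)
      map_add' := fun ζ ζ' => by
        rw [← MemLp.toLp_add]
        refine MemLp.toLp_congr _ _ (Eventually.of_forall fun x => ?_)
        simp only [map_add, Pi.add_apply]
      map_smul' := fun c ζ => by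
        rw [RingHom.id_apply, ← MemLp.toLp_const_smul]
        refine MemLp.toLp_congr _ _ (Eventually.of_forall fun x => ?_)
        simp only [map_smul, Pi.smul_apply] }
    (Real.sqrt (nsq ω μ b).toReal) (fun ζ => by
      have hN : 0 ≤ (nsq ω μ b).toReal := ENNReal.toReal_nonneg
      refine (sq_le_sq₀ (norm_nonneg _) (by positivity)).1 ?_
      change ‖(memLp_apply h hb hb2 ho ζ).toLp (fun x => b x ζ)‖ ^ 2 ≤ _
      rw [norm_sq_toLp, integral_sq_eq (memLp_apply h hb hb2 ho ζ), mul_pow, Real.sq_sqrt hN]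
      have h1 := ENNReal.toReal_mono
        (ENNReal.mul_ne_top (nsq_lt_top hb2).ne (by simp)) (lintegral_sq_le h hb hb2 ho ζ)
      rwa [ENNReal.toReal_mul, ENNReal.toReal_pow, toReal_enorm] at h1)

theorem vf_coe [μ.IsMulLeftInvariant] (h : TFrm ρ V ω) (hb : Fd ι ρ b)
    (hb2 : L2 ω μ b) (ho : Ort V ω μ b b) (ζ : K) :
    vf h hb hb2 ho ζ = (memLp_apply h hb hb2 ho ζ).toLp (fun x => b x ζ) := rfl

theorem vf_ae [μ.IsMulLeftInvariant] (h : TFrm ρ V ω) (hb : Fd ι ρ b)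
    (hb2 : L2 ω μ b) (ho : Ort V ω μ b b) (ζ : K) :
    (vf h hb hb2 ho ζ : G → K) =ᵐ[μ] fun x => b x ζ :=
  (memLp_apply h hb hb2 ho ζ).coeFn_toLp

/-- The integral identity (T4). -/
theorem integral_apply [μ.IsMulLeftInvariant] (h : TFrm ρ V ω) (ha : Fd ι ρ a) (hb : Fd ι ρ b)
    (ha2 : L2 ω μ a) (hb2 : L2 ω μ b) (hoa : Ort V ω μ a a) (hob : Ort V ω μ b b)
    (ho : Ort V ω μ a b) (ζ ζ' : K) :
    ∫ x, ⟪a x ζ, b x ζ'⟫_ℂ ∂μ = ip ω μ a b * ⟪ζ, ζ'⟫_ℂ := by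
  set A := vf h ha ha2 hoa with hA
  set B := vf h hb hb2 hob with hB
  have key : ∀ u w : K, ⟪A u, B w⟫_ℂ = ∫ x, ⟪a x u, b x w⟫_ℂ ∂μ := fun u w => by
    rw [hA, hB, vf_coe, vf_coe, ← integral_inner_toLp]
  rw [← key]
  have hR := h.regV
  have h1 : ∀ v w : Λ, ⟪A (V v ω), B (V w ω)⟫_ℂ = ip ω μ a b * ⟪V v ω, V w ω⟫_ℂ := fun v w => by
    rw [key]; exact integral_V h.toFrm ha hb ha2 hb2 ho v w
  have h2 : adjoint A ∘L B = ip ω μ a b • (1 : K →L[ℂ] K) := by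
    refine hR.ext_op fun w => hR.ext_vec fun v => ?_
    rw [comp_apply, adjoint_inner_right, h1, smul_apply, one_apply_eq_self, inner_smul_right]
  have h3 : ⟪A ζ, B ζ'⟫_ℂ = ⟪ζ, (adjoint A ∘L B) ζ'⟫_ℂ := by
    rw [comp_apply, adjoint_inner_right]
  rw [h3, h2, smul_apply, one_apply_eq_self, inner_smul_right]

/-- The square norm version of (T4). -/
theorem lintegral_sq_apply [μ.IsMulLeftInvariant] (h : TFrm ρ V ω) (hb : Fd ι ρ b)
    (hb2 : L2 ω μ b) (ho : Ort V ω μ b b) (ζ : K) :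
    ∫⁻ x, ‖b x ζ‖ₑ ^ 2 ∂μ = nsq ω μ b * ‖ζ‖ₑ ^ 2 := by
  have h1 := integral_apply h hb hb hb2 hb2 ho ho ho ζ ζ
  have hm := memLp_apply h hb hb2 ho ζ
  rw [ip_self hb2, integral_inner_toLp hm hm, inner_self_eq_norm_sq_to_K,
    inner_self_eq_norm_sq_to_K] at h1
  have h2 : ‖hm.toLp _‖ ^ 2 = (nsq ω μ b).toReal * ‖ζ‖ ^ 2 := by
    apply Complex.ofReal_injective
    push_cast
    exact h1
  rw [norm_sq_toLp, integral_sq_eq hm] at h2
  have h3 : ∫⁻ x, ‖b x ζ‖ₑ ^ 2 ∂μ ≠ ∞ := (lintegral_sq_lt_top hm).ne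
  have h4 : nsq ω μ b * ‖ζ‖ₑ ^ 2 ≠ ∞ := ENNReal.mul_ne_top (nsq_lt_top hb2).ne (by simp)
  rw [← ENNReal.toReal_eq_toReal_iff' h3 h4, h2, ENNReal.toReal_mul, ENNReal.toReal_pow,
    toReal_enorm]

/-! ### the smooth fields form a `*`-algebra -/

namespace Smo

variable [μ.IsMulLeftInvariant]

theorem zero : Smo ι κ ρ V ω μ (fun _ => 0) := ⟨Fd.zero, ACont.zero, L2.zero⟩

theorem add (ha : Smo ι κ ρ V ω μ a) (hb : Smo ι κ ρ V ω μ b) :
    Smo ι κ ρ V ω μ (fun x => a x + b x) :=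
  ⟨ha.toFd.add hb.toFd, ha.acont.add hb.acont, L2.add ha.l2 hb.l2⟩

theorem smul (c : ℂ) (hb : Smo ι κ ρ V ω μ b) : Smo ι κ ρ V ω μ (fun x => c • b x) :=
  ⟨hb.toFd.smul c, hb.acont.smul c, L2.smul c hb.l2⟩

theorem neg (hb : Smo ι κ ρ V ω μ b) : Smo ι κ ρ V ω μ (fun x => - b x) :=
  ⟨hb.toFd.neg, hb.acont.neg, L2.neg hb.l2⟩

theorem sub (ha : Smo ι κ ρ V ω μ a) (hb : Smo ι κ ρ V ω μ b) :
    Smo ι κ ρ V ω μ (fun x => a x - b x) :=
  ⟨ha.toFd.sub hb.toFd, ha.acont.sub hb.acont, L2.sub ha.l2 hb.l2⟩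

theorem mul (h : Frm ρ V ω) (ha : Smo ι κ ρ V ω μ a) (hb : Smo ι κ ρ V ω μ b) :
    Smo ι κ ρ V ω μ (fun x => a x * b x) :=
  ⟨ha.toFd.mul hb.toFd, ACont.mul h ha.acont hb.acont ha.bdd hb.bdd,
    L2.mul_right h.reg ha.toFd hb.toFd ha.l2⟩

theorem adj (h : Frm ρ V ω) (hb : Smo ι κ ρ V ω μ b) :
    Smo ι κ ρ V ω μ (fun x => adjoint (b x)) :=
  ⟨hb.toFd.adj h.reg, ACont.adj h hb.acont, L2.adj h.reg hb.toFd hb.l2⟩

theorem conj (h : Frm ρ V ω) (hb : Smo ι κ ρ V ω μ b) (v : Λ) :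
    Smo ι κ ρ V ω μ (fun x => V v * b x * V v⁻¹) :=
  ⟨hb.toFd.conj h v, ACont.conj h hb.acont v, L2.conj h hb.toFd hb.l2 v⟩

theorem rt [μ.IsMulRightInvariant] (hb : Smo ι κ ρ V ω μ b) (z : G) :
    Smo ι κ ρ V ω μ (fun x => b (x * z)) :=
  ⟨hb.toFd.rt z, ACont.rt hb.acont z, L2.rt hb.toFd hb.l2 z⟩

end Smo

end int

end Vale.Agent.P092.H156.Sm
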