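import Vale.Agent.P092.H432.PiA

/-!
P092 (helper156): quasi-invariance of the masses `∑ i ‖1_S R_w ε_i‖²` under `w ↦ v w v'`, uniform
in `w` and `S`.
-/

set_option linter.all false

open scoped InnerProductSpace
open Filter Topology ContinuousLinearMap

namespace Vale.Agent.P092.H156

open Vale.Agent.P092.H160 Vale.Agent.P092.H553 Vale.Agent.P092.H432

variable {Γ Λ ι : Type} [Group Γ] [Group Λ] [Fintype ι] {t : ℝ}
  {R : Λ → (Ell2 (Γ × ι) →L[ℂ] Ell2 (Γ × ι))}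

/-- indicator function of a set -/
noncomputable def i1 (S : Set Γ) : Γ → ℝ := S.indicator fun _ => 1

theorem abs_i1_le (S : Set Γ) (g : Γ) : |i1 S g| ≤ 1 := by
  by_cases h : g ∈ S <;> simp [i1, h]

theorem i1_nonneg (S : Set Γ) (g : Γ) : 0 ≤ i1 S g := by
  by_cases h : g ∈ S <;> simp [i1, h]

theorem i1_abs_mono {S S' : Set Γ} (h : S ⊆ S') (g : Γ) : |i1 S g| ≤ |i1 S' g| := by
  rw [abs_of_nonneg (i1_nonneg _ _), abs_of_nonneg (i1_nonneg _ _)]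
  exact Set.indicator_le_indicator_of_subset h (fun _ => zero_le_one) g

/-- the mass of an operator on a set -/
noncomputable def ms (T : Ell2 (Γ × ι) →L[ℂ] Ell2 (Γ × ι)) (S : Set Γ) : ℝ :=
  ∑ i, ‖mp ι (i1 S) (T (ep i))‖ ^ 2

theorem ms_nonneg (T : Ell2 (Γ × ι) →L[ℂ] Ell2 (Γ × ι)) (S : Set Γ) : 0 ≤ ms T S :=
  Finset.sum_nonneg fun _ _ => sq_nonneg _

theorem norm_mp_i1_le (S : Set Γ) (ξ : Ell2 (Γ × ι)) : ‖mp ι (i1 S) ξ‖ ≤ ‖ξ‖ := by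
  have := norm_mp_le (ι := ι) (F := i1 S) (C := 1) (abs_i1_le S) ξ
  simpa using this

theorem norm_mp_i1_mono {S S' : Set Γ} (h : S ⊆ S') (ξ : Ell2 (Γ × ι)) :
    ‖mp ι (i1 S) ξ‖ ≤ ‖mp ι (i1 S') ξ‖ :=
  norm_mo_le_mo (F := fun x : Γ × ι => i1 S x.1) (G := fun x : Γ × ι => i1 S' x.1)
    (mp_bdd (abs_i1_le S)) (mp_bdd (abs_i1_le S')) (fun x => i1_abs_mono h x.1) ξ

theorem ms_mono (T : Ell2 (Γ × ι) →L[ℂ] Ell2 (Γ × ι)) {S S' : Set Γ} (h : S ⊆ S') :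
    ms T S ≤ ms T S' :=
  Finset.sum_le_sum fun i _ => pow_le_pow_left₀ (norm_nonneg _) (norm_mp_i1_mono h _) 2

theorem ms_le_nn (T : Ell2 (Γ × ι) →L[ℂ] Ell2 (Γ × ι)) (S : Set Γ) : ms T S ≤ nn T :=
  Finset.sum_le_sum fun i _ => pow_le_pow_left₀ (norm_nonneg _) (norm_mp_i1_le _ _) 2

theorem sq_add_le (a b : ℝ) : (a + b) ^ 2 ≤ 2 * a ^ 2 + 2 * b ^ 2 := by nlinarith [sq_nonneg (a - b)]

/-- left leg -/
theorem ms_mul_right [DecidableEq ι] (T' : Ell2 (Γ × ι) →L[ℂ] Ell2 (Γ × ι)) {ε : ℝ} (hε : 0 < ε) :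
    ∃ (F : Finset Γ) (C : ℝ), 0 ≤ C ∧ ∀ T : Ell2 (Γ × ι) →L[ℂ] Ell2 (Γ × ι), RA T → ‖T‖ ≤ 1 →
      ∀ S : Set Γ, ms (T * T') S ≤ C * ms T {x | ∃ a ∈ F, a * x ∈ S} + ε := by
  classical
  obtain ⟨A, hA⟩ := exists_appr T' (half_pos hε)
  refine ⟨A.image Prod.fst, 2 * ∑ i, ‖T' (ep i)‖ ^ 2 * A.card, by positivity, fun T hT hT1 S => ?_⟩
  obtain ⟨S', hS'⟩ : ∃ S' : Set Γ, S' = {x | ∃ a ∈ A.image Prod.fst, a * x ∈ S} := ⟨_, rfl⟩
  rw [← hS']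
  have key : ∀ x ∈ A, ∀ η : Ell2 (Γ × ι), ‖mp ι (i1 S) (lx x.1 η)‖ ≤ ‖mp ι (i1 S') η‖ := by
    intro x hx η
    have h1 : mp ι (i1 S) (lx x.1 η) = lx x.1 (mp ι (fun g => i1 S (x.1 * g)) η) := by
      rw [lx_mp (C := 1) (fun g => abs_i1_le S _)]
      simp only [mul_inv_cancel_left]
    rw [h1, norm_lx]
    refine norm_mo_le_mo (F := fun y : Γ × ι => i1 S (x.1 * y.1)) (G := fun y : Γ × ι => i1 S' y.1)
      (C := 1) (D := 1) (fun y => abs_i1_le S _) (fun y => abs_i1_le S' _) (fun y => ?_) η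
    have h2 : i1 S (x.1 * y.1) = i1 {g | x.1 * g ∈ S} y.1 := rfl
    simp only [h2]
    refine i1_abs_mono (fun g hg => ?_) y.1
    rw [hS']
    exact ⟨x.1, Finset.mem_image_of_mem _ hx, hg⟩
  have h3 : ∀ i, ‖mp ι (i1 S) ((T * T') (ep i))‖ ^ 2 ≤
      2 * (‖T' (ep i)‖ ^ 2 * (A.card * ms T S')) + 2 * ‖(T' - appr T' A) (ep i)‖ ^ 2 := by
    intro i
    have h4 : (T * T') (ep i) = T (appr T' A (ep i)) + T ((T' - appr T' A) (ep i)) := by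
      rw [mul_ap, ← map_add, sub_apply]
      congr 1
      abel
    have h5 : ‖mp ι (i1 S) (T ((T' - appr T' A) (ep i)))‖ ≤ ‖(T' - appr T' A) (ep i)‖ :=
      (norm_mp_i1_le _ _).trans ((T.le_opNorm _).trans (by
        have := norm_nonneg ((T' - appr T' A) (ep i)); nlinarith))
    have h6 : ‖mp ι (i1 S) (T (appr T' A (ep i)))‖ ^ 2 ≤ ‖T' (ep i)‖ ^ 2 * (A.card * ms T S') := by
      have h7 : mp ι (i1 S) (T (appr T' A (ep i))) =
          ∑ x ∈ A, (T' (ep i) : Ell2 (Γ × ι)) x • mp ι (i1 S) (lx x.1 (T (ep x.2))) := by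
        rw [appr_ep, map_sum, map_sum]
        refine Finset.sum_congr rfl fun x _ => ?_
        rw [map_smul, map_smul, dl_eq_lx, hT.app]
      have h8 : ‖mp ι (i1 S) (T (appr T' A (ep i)))‖ ≤
          ∑ x ∈ A, ‖(T' (ep i) : Ell2 (Γ × ι)) x‖ * ‖mp ι (i1 S') (T (ep x.2))‖ := by
        rw [h7]
        refine (norm_sum_le _ _).trans (Finset.sum_le_sum fun x hx => ?_)
        rw [norm_smul]
        exact mul_le_mul_of_nonneg_left (key x hx _) (norm_nonneg _)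
      have h9 : (∑ x ∈ A, ‖(T' (ep i) : Ell2 (Γ × ι)) x‖ * ‖mp ι (i1 S') (T (ep x.2))‖) ^ 2 ≤
          (∑ x ∈ A, ‖(T' (ep i) : Ell2 (Γ × ι)) x‖ ^ 2) * ∑ x ∈ A, ‖mp ι (i1 S') (T (ep x.2))‖ ^ 2 :=
        Finset.sum_mul_sq_le_sq_mul_sq _ _ _
      have h10 : ∑ x ∈ A, ‖(T' (ep i) : Ell2 (Γ × ι)) x‖ ^ 2 ≤ ‖T' (ep i)‖ ^ 2 := by
        rw [norm_sq]
        exact (summable_sq (T' (ep i))).sum_le_tsum _ fun _ _ => sq_nonneg _
      have h11 : ∑ x ∈ A, ‖mp ι (i1 S') (T (ep x.2))‖ ^ 2 ≤ A.card * ms T S' := by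
        have h12 : ∀ x ∈ A, ‖mp ι (i1 S') (T (ep x.2))‖ ^ 2 ≤ ms T S' := fun x _ =>
          Finset.single_le_sum (f := fun i => ‖mp ι (i1 S') (T (ep i))‖ ^ 2)
            (fun _ _ => sq_nonneg _) (Finset.mem_univ x.2)
        refine (Finset.sum_le_sum h12).trans ?_
        rw [Finset.sum_const, nsmul_eq_mul]
      calc ‖mp ι (i1 S) (T (appr T' A (ep i)))‖ ^ 2
          ≤ (∑ x ∈ A, ‖(T' (ep i) : Ell2 (Γ × ι)) x‖ * ‖mp ι (i1 S') (T (ep x.2))‖) ^ 2 :=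
            pow_le_pow_left₀ (norm_nonneg _) h8 2
        _ ≤ _ := h9
        _ ≤ _ := by
            refine mul_le_mul h10 h11 (Finset.sum_nonneg fun _ _ => sq_nonneg _) (sq_nonneg _)
    have h13 : ‖mp ι (i1 S) ((T * T') (ep i))‖ ≤ ‖mp ι (i1 S) (T (appr T' A (ep i)))‖ +
        ‖(T' - appr T' A) (ep i)‖ := by
      rw [h4, map_add]
      exact (norm_add_le _ _).trans (by linarith)
    calc ‖mp ι (i1 S) ((T * T') (ep i))‖ ^ 2 ≤ _ := pow_le_pow_left₀ (norm_nonneg _) h13 2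
      _ ≤ _ := sq_add_le _ _
      _ ≤ _ := by linarith
  calc ms (T * T') S ≤ ∑ i, (2 * (‖T' (ep i)‖ ^ 2 * (A.card * ms T S')) +
        2 * ‖(T' - appr T' A) (ep i)‖ ^ 2) := Finset.sum_le_sum fun i _ => h3 i
    _ = (2 * ∑ i, ‖T' (ep i)‖ ^ 2 * A.card) * ms T S' + 2 * nn (T' - appr T' A) := by
      rw [Finset.sum_add_distrib, nn, Finset.mul_sum, Finset.mul_sum, Finset.sum_mul]
      congr 1
      refine Finset.sum_congr rfl fun i _ => by ring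
    _ ≤ _ := by linarith

/-- right leg -/
theorem ms_mul_left [DecidableEq ι] {T' : Ell2 (Γ × ι) →L[ℂ] Ell2 (Γ × ι)} (hT' : RA T')
    {ε : ℝ} (hε : 0 < ε) :
    ∃ (F : Finset Γ) (C : ℝ), 0 ≤ C ∧ ∀ T : Ell2 (Γ × ι) →L[ℂ] Ell2 (Γ × ι), RA T → ‖T‖ ≤ 1 →
      ∀ S : Set Γ, ms (T' * T) S ≤ C * ms T {x | ∃ a ∈ F, x * a ∈ S} + ε := by
  classical
  obtain ⟨A, hA⟩ := exists_appr T' (half_pos hε)
  obtain ⟨c, hc⟩ : ∃ c : ℝ, c = ∑ i, ∑ x ∈ A, ‖(T' (ep i) : Ell2 (Γ × ι)) x‖ := ⟨_, rfl⟩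
  have hc0 : 0 ≤ c := by rw [hc]; positivity
  refine ⟨A.image Prod.fst, 2 * c ^ 2, by positivity, fun T hT hT1 S => ?_⟩
  obtain ⟨S', hS'⟩ : ∃ S' : Set Γ, S' = {x | ∃ a ∈ A.image Prod.fst, x * a ∈ S} := ⟨_, rfl⟩
  rw [← hS']
  have key : ∀ x ∈ A, ∀ i (η : Ell2 (Γ × ι)), ‖mp ι (i1 S) (ex i x.2 x.1 η)‖ ≤
      ‖mp ι (i1 S') η‖ := by
    intro x hx i η
    rw [mp_ex (C := 1) (abs_i1_le S)]
    refine (norm_ex_le _ _ _ _).trans ?_
    refine norm_mo_le_mo (F := fun y : Γ × ι => i1 S (y.1 * x.1)) (G := fun y : Γ × ι => i1 S' y.1)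
      (C := 1) (D := 1) (fun y => abs_i1_le S _) (fun y => abs_i1_le S' _) (fun y => ?_) η
    have h2 : i1 S (y.1 * x.1) = i1 {g | g * x.1 ∈ S} y.1 := rfl
    simp only [h2]
    refine i1_abs_mono (fun g hg => ?_) y.1
    rw [hS']
    exact ⟨x.1, Finset.mem_image_of_mem _ hx, hg⟩
  have h6 : ∀ η : Ell2 (Γ × ι), ‖mp ι (i1 S) (appr T' A η)‖ ≤ c * ‖mp ι (i1 S') η‖ := by
    intro η
    have h7 : mp ι (i1 S) (appr T' A η) =
        ∑ i, ∑ x ∈ A, (T' (ep i) : Ell2 (Γ × ι)) x • mp ι (i1 S) (ex i x.2 x.1 η) := by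
      rw [appr, ContinuousLinearMap.sum_apply, map_sum]
      refine Finset.sum_congr rfl fun i _ => ?_
      rw [ContinuousLinearMap.sum_apply, map_sum]
      refine Finset.sum_congr rfl fun x _ => ?_
      rw [smul_apply, map_smul]
    rw [h7, hc, Finset.sum_mul]
    refine (norm_sum_le _ _).trans (Finset.sum_le_sum fun i _ => ?_)
    rw [Finset.sum_mul]
    refine (norm_sum_le _ _).trans (Finset.sum_le_sum fun x hx => ?_)
    rw [norm_smul]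
    exact mul_le_mul_of_nonneg_left (key x hx i η) (norm_nonneg _)
  have h3 : ∀ i, ‖mp ι (i1 S) ((T' * T) (ep i))‖ ^ 2 ≤
      2 * (c ^ 2 * ‖mp ι (i1 S') (T (ep i))‖ ^ 2) + 2 * ‖((T' - appr T' A) * T) (ep i)‖ ^ 2 := by
    intro i
    have h4 : (T' * T) (ep i) = appr T' A (T (ep i)) + ((T' - appr T' A) * T) (ep i) := by
      rw [mul_ap, mul_ap, sub_apply]
      abel
    have h5 : ‖mp ι (i1 S) (((T' - appr T' A) * T) (ep i))‖ ≤ ‖((T' - appr T' A) * T) (ep i)‖ :=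
      norm_mp_i1_le _ _
    have h13 : ‖mp ι (i1 S) ((T' * T) (ep i))‖ ≤ c * ‖mp ι (i1 S') (T (ep i))‖ +
        ‖((T' - appr T' A) * T) (ep i)‖ := by
      rw [h4, map_add]
      exact (norm_add_le _ _).trans (add_le_add (h6 _) h5)
    calc ‖mp ι (i1 S) ((T' * T) (ep i))‖ ^ 2 ≤ _ := pow_le_pow_left₀ (norm_nonneg _) h13 2
      _ ≤ _ := sq_add_le _ _
      _ = _ := by ring
  have h14 : nn ((T' - appr T' A) * T) ≤ nn (T' - appr T' A) := by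
    refine (nn_mul_le_right (hT'.sub (appr_ra T' A)) hT).trans ?_
    have h15 := nn_nonneg (T' - appr T' A)
    have h16 := norm_nonneg T
    nlinarith [mul_le_one₀ hT1 h16 hT1]
  calc ms (T' * T) S ≤ ∑ i, (2 * (c ^ 2 * ‖mp ι (i1 S') (T (ep i))‖ ^ 2) +
        2 * ‖((T' - appr T' A) * T) (ep i)‖ ^ 2) := Finset.sum_le_sum fun i _ => h3 i
    _ = 2 * c ^ 2 * ms T S' + 2 * nn ((T' - appr T' A) * T) := by
      rw [Finset.sum_add_distrib, nn, ms, Finset.mul_sum, Finset.mul_sum]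
      congr 1
      refine Finset.sum_congr rfl fun i _ => by ring
    _ ≤ _ := by linarith

/-- **[U], fibre form.** Two-sided quasi-invariance of the masses for a finite set of elements of
`Λ`, uniform in the middle element and in the set. -/
theorem fib_quasi [DecidableEq ι] (hR : ARep t R) (A : Finset Λ) {ε : ℝ} (hε : 0 < ε) :
    ∃ (F : Finset Γ) (C : ℝ), 0 ≤ C ∧ ∀ v ∈ A, ∀ v' ∈ A, ∀ (w : Λ) (S : Set Γ),
      ms (R (v * w * v')) S ≤ C * ms (R w) {x | ∃ a ∈ F, ∃ b ∈ F, a * x * b ∈ S} + ε := by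
  classical
  have h1 : ∀ p : Λ × Λ, ∃ (F : Finset Γ) (C : ℝ), 0 ≤ C ∧ ∀ (w : Λ) (S : Set Γ),
      ms (R (p.1 * w * p.2)) S ≤ C * ms (R w) {x | ∃ a ∈ F, ∃ b ∈ F, a * x * b ∈ S} + ε := by
    intro p
    obtain ⟨F1, C1, hC1, h1⟩ := ms_mul_left (hR.ra p.1) (half_pos hε)
    have hε' : 0 < ε / (2 * (C1 + 1)) := by positivity
    obtain ⟨F2, C2, hC2, h2⟩ := ms_mul_right (R p.2) hε'
    refine ⟨F1 ∪ F2, C1 * C2, by positivity, fun w S => ?_⟩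
    have e1 : R (p.1 * w * p.2) = R p.1 * (R w * R p.2) := by
      rw [← hR.mul, ← hR.mul, mul_assoc]
    have e2 := h1 (R w * R p.2) ((hR.ra w).mul (hR.ra p.2))
      ((norm_mul_le _ _).trans (mul_le_one₀ (hR.opNorm_le w) (norm_nonneg _) (hR.opNorm_le p.2))) S
    have e3 := h2 (R w) (hR.ra w) (hR.opNorm_le w) {x | ∃ a ∈ F1, x * a ∈ S}
    have e4 : ms (R w) {x | ∃ a ∈ F2, a * x ∈ {x | ∃ a ∈ F1, x * a ∈ S}} ≤
        ms (R w) {x | ∃ a ∈ F1 ∪ F2, ∃ b ∈ F1 ∪ F2, a * x * b ∈ S} := by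
      refine ms_mono _ fun x hx => ?_
      obtain ⟨a, ha, b, hb, hx⟩ := hx
      exact ⟨a, Finset.mem_union_right _ ha, b, Finset.mem_union_left _ hb, hx⟩
    rw [e1]
    have e5 : C1 * (ε / (2 * (C1 + 1))) ≤ ε / 2 := by
      rw [mul_div_assoc', div_le_div_iff₀ (by positivity) (by positivity)]
      nlinarith
    calc ms (R p.1 * (R w * R p.2)) S ≤ _ := e2
      _ ≤ C1 * (C2 * ms (R w) {x | ∃ a ∈ F1 ∪ F2, ∃ b ∈ F1 ∪ F2, a * x * b ∈ S} +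
          ε / (2 * (C1 + 1))) + ε / 2 := by
        have := mul_le_mul_of_nonneg_left e4 hC2
        have := mul_le_mul_of_nonneg_left (e3.trans (add_le_add_left this _)) hC1
        linarith
      _ = C1 * C2 * ms (R w) {x | ∃ a ∈ F1 ∪ F2, ∃ b ∈ F1 ∪ F2, a * x * b ∈ S} +
          C1 * (ε / (2 * (C1 + 1))) + ε / 2 := by ring
      _ ≤ _ := by linarith
  choose F C hC h2 using h1
  refine ⟨(A ×ˢ A).biUnion F, ∑ p ∈ A ×ˢ A, C p, Finset.sum_nonneg fun p _ => hC p,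
    fun v hv v' hv' w S => ?_⟩
  have hp : (v, v') ∈ A ×ˢ A := Finset.mem_product.2 ⟨hv, hv'⟩
  have hm := ms_nonneg (R w) {x | ∃ a ∈ (A ×ˢ A).biUnion F, ∃ b ∈ (A ×ˢ A).biUnion F,
    a * x * b ∈ S}
  calc ms (R (v * w * v')) S ≤ _ := h2 (v, v') w S
    _ ≤ C (v, v') * ms (R w) {x | ∃ a ∈ (A ×ˢ A).biUnion F, ∃ b ∈ (A ×ˢ A).biUnion F,
        a * x * b ∈ S} + ε := by
      refine add_le_add_left (mul_le_mul_of_nonneg_left (ms_mono _ fun x hx => ?_) (hC _)) _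
      obtain ⟨a, ha, b, hb, hx⟩ := hx
      exact ⟨a, Finset.mem_biUnion.2 ⟨_, hp, ha⟩, b, Finset.mem_biUnion.2 ⟨_, hp, hb⟩, hx⟩
    _ ≤ _ := by
      refine add_le_add_left (mul_le_mul_of_nonneg_right ?_ hm) _
      exact Finset.single_le_sum (f := C) (fun p _ => hC p) hp

theorem ms_le (hR : ARep t R) (w : Λ) (S : Set Γ) : ms (R w) S ≤ Fintype.card ι := by
  refine (ms_le_nn _ _).trans ?_
  rw [nn]
  refine (Finset.sum_le_card_nsmul _ _ 1 fun i _ => ?_).trans (by simp)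
  have h1 : ‖R w (ep i)‖ ≤ 1 := (hR.norm_le w _).trans (by rw [ep, norm_dl])
  exact pow_le_one₀ (norm_nonneg _) h1

end Vale.Agent.P092.H156
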