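import Vale.Agent.P092.H156.Int

/-!
P092 (helper156), team A, [GLUE-HS]: smeared fields and the Hilbert–Schmidt property of their
values.
-/

set_option linter.all false

open scoped InnerProductSpace Topology ENNReal Pointwise
open Filter ContinuousLinearMap MeasureTheory
open Vale.Agent.P092.H160

namespace Vale.Agent.P092.H156.Sm

section smear

variable {Γ G K : Type} [Group Γ] [Group G]
  [TopologicalSpace G] [IsTopologicalGroup G]
  [MeasurableSpace G] [BorelSpace G] [SecondCountableTopology G]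
  [NormedAddCommGroup K] [InnerProductSpace ℂ K] [CompleteSpace K]
  {ρ : Γ →* (K →L[ℂ] K)} {ω : K} {ι : Γ →* G}
  {μ : Measure G} {a b : G → K →L[ℂ] K} {k : G → ℂ}

/-- The smeared field. -/
noncomputable def smear (μ : Measure G) (k : G → ℂ) (b : G → K →L[ℂ] K) (g : G) : K →L[ℂ] K :=
  ∫ t, k t • b (g * t) ∂μ

theorem smear_integrable [IsFiniteMeasureOnCompacts μ] (hk : Continuous k)
    (hks : HasCompactSupport k) (hb : Continuous b) (g : G) :
    Integrable (fun t => k t • b (g * t)) μ :=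
  (hk.smul (hb.comp (by fun_prop : Continuous fun t => g * t))).integrable_of_hasCompactSupport
    hks.smul_right

theorem smear_apply [IsFiniteMeasureOnCompacts μ] (hk : Continuous k)
    (hks : HasCompactSupport k) (hb : Continuous b) (g : G) (ζ : K) :
    smear μ k b g ζ = ∫ t, k t • b (g * t) ζ ∂μ := by
  unfold smear
  rw [ContinuousLinearMap.integral_apply (smear_integrable hk hks hb g)]
  rfl

theorem smear_mul_left (A : K →L[ℂ] K) [IsFiniteMeasureOnCompacts μ] (hk : Continuous k)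
    (hks : HasCompactSupport k) (hb : Continuous b) (g : G) :
    A * smear μ k b g = ∫ t, k t • (A * b (g * t)) ∂μ := by
  unfold smear
  rw [← integral_const_mul_of_integrable (smear_integrable hk hks hb g)]
  simp only [mul_smul_comm]

theorem smear_mul_right (A : K →L[ℂ] K) [IsFiniteMeasureOnCompacts μ] (hk : Continuous k)
    (hks : HasCompactSupport k) (hb : Continuous b) (g : G) :
    smear μ k b g * A = ∫ t, k t • (b (g * t) * A) ∂μ := by
  unfold smear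
  rw [← integral_mul_const_of_integrable (smear_integrable hk hks hb g)]
  simp only [smul_mul_assoc]

theorem smear_equiv [IsFiniteMeasureOnCompacts μ] (hk : Continuous k)
    (hks : HasCompactSupport k) (hb : Continuous b)
    (he : ∀ γ x, b (ι γ * x) = ρ γ * b x * ρ γ⁻¹) (γ : Γ) (x : G) :
    smear μ k b (ι γ * x) = ρ γ * smear μ k b x * ρ γ⁻¹ := by
  have h1 : Continuous fun t => ρ γ * b t := continuous_const.mul hb
  rw [smear_mul_left _ hk hks hb]
  have h2 : ∫ t, k t • (ρ γ * b (x * t)) ∂μ = smear μ k (fun t => ρ γ * b t) x := rfl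
  rw [h2, smear_mul_right _ hk hks h1]
  unfold smear
  simp only [mul_assoc, he]

/-- The basic estimate of the smeared field. -/
theorem enorm_smear_sq_le [IsFiniteMeasureOnCompacts μ] (hk : Continuous k)
    (hks : HasCompactSupport k) (hb : Continuous b) {S : Set G} (hS : MeasurableSet S)
    (hkS : ∀ t, t ∉ S → k t = 0) (g : G) (ζ : K) :
    ‖smear μ k b g ζ‖ₑ ^ 2 ≤ (∫⁻ t, ‖k t‖ₑ ^ 2 ∂μ) *
      ∫⁻ t, S.indicator (fun t => ‖b (g * t) ζ‖ₑ ^ 2) t ∂μ := by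
  set f : G → ℝ≥0∞ := fun t => ‖k t‖ₑ with hf
  set u : G → ℝ≥0∞ := fun t => S.indicator (fun t => ‖b (g * t) ζ‖ₑ) t with hu
  have hbc : Continuous fun t => b (g * t) ζ :=
    (hb.comp (by fun_prop : Continuous fun t => g * t)).clm_apply continuous_const
  have hum : Measurable u := (hbc.enorm.measurable).indicator hS
  have hfm : Measurable f := hk.enorm.measurable
  have h1 : ‖smear μ k b g ζ‖ₑ ≤ ∫⁻ t, (f * u) t ∂μ := by
    rw [smear_apply hk hks hb]
    refine (enorm_integral_le_lintegral_enorm _).trans (lintegral_mono fun t => ?_)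
    rw [enorm_smul, Pi.mul_apply]
    by_cases ht : t ∈ S
    · simp only [hu, hf, Set.indicator_of_mem ht]; exact le_rfl
    · rw [hkS t ht, enorm_zero, zero_mul]; exact zero_le
  have h2 := ENNReal.lintegral_mul_le_Lp_mul_Lq μ Real.HolderConjugate.two_two
    hfm.aemeasurable hum.aemeasurable
  have h3 := h1.trans h2
  have h4 : ∀ x : ℝ≥0∞, (x ^ (1 / (2 : ℝ))) ^ 2 = x := fun x => by
    rw [← ENNReal.rpow_natCast, ← ENNReal.rpow_mul]; norm_num
  have h5 : ‖smear μ k b g ζ‖ₑ ^ 2 ≤ ((∫⁻ t, f t ^ (2 : ℝ) ∂μ) ^ (1 / (2 : ℝ)) *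
      (∫⁻ t, u t ^ (2 : ℝ) ∂μ) ^ (1 / (2 : ℝ))) ^ 2 := by gcongr
  rw [mul_pow, h4, h4] at h5
  refine h5.trans (le_of_eq ?_)
  have e1 : ∫⁻ t, f t ^ (2 : ℝ) ∂μ = ∫⁻ t, ‖k t‖ₑ ^ 2 ∂μ :=
    lintegral_congr fun t => by simp only [hf, ENNReal.rpow_two]
  have e2 : ∫⁻ t, u t ^ (2 : ℝ) ∂μ =
      ∫⁻ t, S.indicator (fun t => ‖b (g * t) ζ‖ₑ ^ 2) t ∂μ :=
    lintegral_congr fun t => by
      by_cases ht : t ∈ S
      · simp only [hu, Set.indicator_of_mem ht, ENNReal.rpow_two]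
      · simp only [hu, Set.indicator_of_notMem ht, ENNReal.rpow_two]
        norm_num
  rw [e1, e2]

/-- The multiplicity of the orbit in a compact set. -/
noncomputable def mult (ι : Γ →* G) (S : Set G) (g : G) : ℕ :=
  {γ : Γ | ι γ ∈ (fun p : G × G => g * p.1 * p.2⁻¹ * g⁻¹) '' (S ×ˢ S)}.ncard

theorem mult_finite (hp : ∀ C : Set G, IsCompact C → {γ | ι γ ∈ C}.Finite) {S : Set G}
    (hS : IsCompact S) (g : G) :
    {γ : Γ | ι γ ∈ (fun p : G × G => g * p.1 * p.2⁻¹ * g⁻¹) '' (S ×ˢ S)}.Finite := by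
  refine hp _ ((hS.prod hS).image ?_)
  fun_prop

theorem tsum_indicator_le (hp : ∀ C : Set G, IsCompact C → {γ | ι γ ∈ C}.Finite) {S : Set G}
    (hS : IsCompact S) (g s : G) :
    ∑' γ : Γ, S.indicator (fun _ => (1 : ℝ≥0∞)) (g⁻¹ * ι γ * s) ≤ mult ι S g := by
  classical
  set C : Set Γ := {γ : Γ | ι γ ∈ (fun p : G × G => g * p.1 * p.2⁻¹ * g⁻¹) '' (S ×ˢ S)} with hC
  have hCf : C.Finite := mult_finite hp hS g
  by_cases h0 : ∃ γ₀ : Γ, g⁻¹ * ι γ₀ * s ∈ S
  · obtain ⟨γ₀, hγ₀⟩ := h0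
    have h1 : ∀ γ : Γ, S.indicator (fun _ => (1 : ℝ≥0∞)) (g⁻¹ * ι γ * s) ≤
        ∑ δ ∈ hCf.toFinset, if γ = δ * γ₀ then (1 : ℝ≥0∞) else 0 := by
      intro γ
      by_cases hγ : g⁻¹ * ι γ * s ∈ S
      · rw [Set.indicator_of_mem hγ]
        have hmem : γ * γ₀⁻¹ ∈ hCf.toFinset := by
          rw [Set.Finite.mem_toFinset]
          refine ⟨(g⁻¹ * ι γ * s, g⁻¹ * ι γ₀ * s), ⟨hγ, hγ₀⟩, ?_⟩
          simp only [map_mul, map_inv]
          group
        calc (1 : ℝ≥0∞) = if γ = (γ * γ₀⁻¹) * γ₀ then (1 : ℝ≥0∞) else 0 := by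
              rw [if_pos (by group)]
          _ ≤ _ := Finset.single_le_sum
              (f := fun δ => if γ = δ * γ₀ then (1 : ℝ≥0∞) else 0) (fun _ _ => zero_le) hmem
      · rw [Set.indicator_of_notMem hγ]; exact zero_le
    refine (ENNReal.tsum_le_tsum h1).trans ?_
    rw [Summable.tsum_finsetSum (fun _ _ => ENNReal.summable)]
    have h2 : ∀ δ ∈ hCf.toFinset, ∑' γ : Γ, (if γ = δ * γ₀ then (1 : ℝ≥0∞) else 0) = 1 :=
      fun δ _ => tsum_ite_eq _ _
    rw [Finset.sum_congr rfl h2, Finset.sum_const, nsmul_eq_mul, mul_one]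
    have h3 : (hCf.toFinset.card : ℕ) = mult ι S g := by
      rw [mult, Set.ncard_eq_toFinset_card _ hCf]
    rw [h3]
  · push Not at h0
    have h1 : ∀ γ : Γ, S.indicator (fun _ => (1 : ℝ≥0∞)) (g⁻¹ * ι γ * s) = 0 :=
      fun γ => Set.indicator_of_notMem (h0 γ) _
    simp only [h1, tsum_zero]
    exact zero_le

/-- The Hilbert–Schmidt sum of the value of a smeared field. -/
theorem tsum_smear_le [IsFiniteMeasureOnCompacts μ] [μ.IsMulLeftInvariant] [Countable Γ]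
    (h : RegRep ρ ω) (hp : ∀ C : Set G, IsCompact C → {γ | ι γ ∈ C}.Finite)
    (hk : Continuous k) (hks : HasCompactSupport k) (hb : Continuous b)
    (he : ∀ γ x, b (ι γ * x) = ρ γ * b x * ρ γ⁻¹) {S : Set G} (hSm : MeasurableSet S)
    (hS : IsCompact S) (hkS : ∀ t, t ∉ S → k t = 0) (g : G) :
    ∑' γ, ‖smear μ k b g (ρ γ ω)‖ₑ ^ 2 ≤
      mult ι S g * ((∫⁻ t, ‖k t‖ₑ ^ 2 ∂μ) * nsq ω μ b) := by
  set A : ℝ≥0∞ := ∫⁻ t, ‖k t‖ₑ ^ 2 ∂μ with hA
  have e1 : ∀ γ, ‖smear μ k b g (ρ γ ω)‖ₑ = ‖smear μ k b (ι γ⁻¹ * g) ω‖ₑ := fun γ => by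
    rw [smear_equiv hk hks hb he, inv_inv, mul_ap, mul_ap, ← ofReal_norm_eq_enorm,
      ← ofReal_norm_eq_enorm, h.norm_map]
  have hbm : Measurable fun s => ‖b s ω‖ₑ ^ 2 :=
    ((hb.clm_apply continuous_const).enorm.measurable).pow_const 2
  have e2 : ∀ γ, ‖smear μ k b (ι γ⁻¹ * g) ω‖ₑ ^ 2 ≤
      A * ∫⁻ s, S.indicator (fun _ => (1 : ℝ≥0∞)) (g⁻¹ * ι γ * s) * ‖b s ω‖ₑ ^ 2 ∂μ := fun γ => by
    refine (enorm_smear_sq_le hk hks hb hSm hkS _ _).trans ?_
    refine mul_le_mul_right ?_ _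
    refine le_of_eq ?_
    have e3 := lintegral_mul_left_eq_self (μ := μ)
      (fun s => S.indicator (fun _ => (1 : ℝ≥0∞)) (g⁻¹ * ι γ * s) * ‖b s ω‖ₑ ^ 2) (ι γ⁻¹ * g)
    rw [← e3]
    refine lintegral_congr fun t => ?_
    have e4 : g⁻¹ * ι γ * (ι γ⁻¹ * g * t) = t := by rw [map_inv]; group
    rw [e4]
    by_cases ht : t ∈ S
    · simp only [Set.indicator_of_mem ht, one_mul]
    · simp only [Set.indicator_of_notMem ht, zero_mul]
  simp_rw [e1]
  refine (ENNReal.tsum_le_tsum e2).trans ?_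
  rw [ENNReal.tsum_mul_left]
  have hind : ∀ γ : Γ, Measurable fun s => S.indicator (fun _ => (1 : ℝ≥0∞)) (g⁻¹ * ι γ * s) :=
    fun γ => (measurable_const.indicator hSm).comp
      ((by fun_prop : Continuous fun s => g⁻¹ * ι γ * s).measurable)
  have e5 : ∑' γ, ∫⁻ s, S.indicator (fun _ => (1 : ℝ≥0∞)) (g⁻¹ * ι γ * s) * ‖b s ω‖ₑ ^ 2 ∂μ ≤
      mult ι S g * nsq ω μ b := by
    have hm : ∀ γ : Γ, AEMeasurable
        (fun s => S.indicator (fun _ => (1 : ℝ≥0∞)) (g⁻¹ * ι γ * s) * ‖b s ω‖ₑ ^ 2) μ :=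
      fun γ => ((hind γ).mul hbm).aemeasurable
    rw [← lintegral_tsum hm]
    unfold nsq
    rw [← lintegral_const_mul _ hbm]
    refine lintegral_mono fun s => ?_
    rw [ENNReal.tsum_mul_right]
    exact mul_le_mul_left (tsum_indicator_le hp hS g s) _
  calc A * ∑' γ, ∫⁻ s, S.indicator (fun _ => (1 : ℝ≥0∞)) (g⁻¹ * ι γ * s) * ‖b s ω‖ₑ ^ 2 ∂μ
      ≤ A * (mult ι S g * nsq ω μ b) := mul_le_mul_right e5 _
    _ = _ := by ring

/-- [GLUE-HS] the values of smeared fields are Hilbert–Schmidt. -/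
theorem smear_summable [IsFiniteMeasureOnCompacts μ] [μ.IsMulLeftInvariant] [Countable Γ]
    (h : RegRep ρ ω) (hp : ∀ C : Set G, IsCompact C → {γ | ι γ ∈ C}.Finite)
    (hk : Continuous k) (hks : HasCompactSupport k) (hb : Continuous b)
    (he : ∀ γ x, b (ι γ * x) = ρ γ * b x * ρ γ⁻¹) (hb2 : nsq ω μ b < ∞) (g : G) :
    Summable fun γ => ‖smear μ k b g (ρ γ ω)‖ ^ 2 := by
  have h1 := tsum_smear_le (μ := μ) h hp hk hks hb he (S := tsupport k) (isClosed_tsupport k).measurableSet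
    hks (fun t ht => image_eq_zero_of_notMem_tsupport ht) g
  have h2 : (∫⁻ t, ‖k t‖ₑ ^ 2 ∂μ) < ∞ :=
    lintegral_sq_lt_top (hk.memLp_of_hasCompactSupport hks)
  have h3 : ∑' γ, ‖smear μ k b g (ρ γ ω)‖ₑ ^ 2 ≠ ∞ :=
    (h1.trans_lt (ENNReal.mul_lt_top (by simp) (ENNReal.mul_lt_top h2 hb2))).ne
  have h4 := ENNReal.summable_toReal h3
  refine h4.congr fun γ => ?_
  rw [ENNReal.toReal_pow, toReal_enorm]

end smear

end Vale.Agent.P092.H156.Sm
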