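import Vale.Agent.P092.H156.Hs
import Mathlib.MeasureTheory.Integral.Prod

/-!
P092 (helper156), team A, [GLUE-HS] part 2: smeared fields are smooth fields, approximation,
products of two places.
-/

set_option linter.all false

open scoped InnerProductSpace Topology ENNReal Pointwise
open Filter ContinuousLinearMap MeasureTheory
open Vale.Agent.P092.H160

namespace Vale.Agent.P092.H156.Sm

section smear

variable {Γ Λ G H K : Type} [Group Γ] [Group Λ] [Group G] [Group H]
  [TopologicalSpace G] [IsTopologicalGroup G] [TopologicalSpace H] [IsTopologicalGroup H]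
  [MeasurableSpace G] [BorelSpace G] [SecondCountableTopology G]
  [NormedAddCommGroup K] [InnerProductSpace ℂ K] [CompleteSpace K]
  {ρ : Γ →* (K →L[ℂ] K)} {V : Λ →* (K →L[ℂ] K)} {ω : K} {ι : Γ →* G} {κ : Λ →* H}
  {μ : Measure G} {a b : G → K →L[ℂ] K} {k : G → ℂ}

theorem norm_smear_le [IsFiniteMeasureOnCompacts μ] (hk : Continuous k)
    (hks : HasCompactSupport k) {C : ℝ} (hC : ∀ x, ‖b x‖ ≤ C) (g : G) :
    ‖smear μ k b g‖ ≤ (∫ t, ‖k t‖ ∂μ) * C := by
  unfold smear
  rw [← integral_mul_const]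
  have hi : Integrable k μ := hk.integrable_of_hasCompactSupport hks
  refine norm_integral_le_of_norm_le (hi.norm.mul_const C) (Eventually.of_forall fun t => ?_)
  rw [norm_smul]
  gcongr
  exact hC _

/-- A continuous function with compact support moves little under small conjugations. -/
theorem small_conj {S U : Set G} (hS : IsCompact S) (hU : U ∈ 𝓝 (1 : G)) :
    ∃ W ∈ 𝓝 (1 : G), ∀ y ∈ W, ∀ t ∈ S, t⁻¹ * y * t ∈ U := by
  have h1 : ∀ᶠ y in 𝓝 (1 : G), ∀ t ∈ S, t⁻¹ * y * t ∈ U := by
    refine hS.eventually_forall_of_forall_eventually fun t _ => ?_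
    have h2 : Continuous fun p : G × G => p.2⁻¹ * p.1 * p.2 := by fun_prop
    have h3 := h2.tendsto (1, t)
    have h4 : ((1 : G), t).2⁻¹ * ((1 : G), t).1 * ((1 : G), t).2 = 1 := by simp
    rw [h4] at h3
    exact h3 hU
  exact ⟨_, h1, fun y hy => hy⟩

theorem Fd.smear [IsFiniteMeasureOnCompacts μ] (hb : Fd ι ρ b) (hk : Continuous k)
    (hks : HasCompactSupport k) : Fd ι ρ (smear μ k b) where
  equiv := fun γ x => smear_equiv hk hks hb.continuous hb.equiv γ x
  bdd := by
    obtain ⟨C, hC⟩ := hb.bdd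
    exact ⟨_, fun x => norm_smear_le hk hks hC x⟩
  rcont := fun ε hε => by
    set I : ℝ := ∫ t, ‖k t‖ ∂μ with hI
    have hI0 : 0 ≤ I := integral_nonneg fun _ => norm_nonneg _
    have hki : Integrable k μ := hk.integrable_of_hasCompactSupport hks
    obtain ⟨U, hU, h1⟩ := hb.rcont (ε / (I + 1)) (by positivity)
    obtain ⟨W, hW, h2⟩ := small_conj (G := G) hks hU
    refine ⟨W, hW, fun y hy x => ?_⟩
    have i1 := smear_integrable (μ := μ) hk hks hb.continuous (x * y)
    have i2 := smear_integrable (μ := μ) hk hks hb.continuous x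
    have e : Sm.smear μ k b (x * y) - Sm.smear μ k b x =
        ∫ t, (k t • b (x * y * t) - k t • b (x * t)) ∂μ := (integral_sub i1 i2).symm
    rw [e]
    have h3 : ‖∫ t, (k t • b (x * y * t) - k t • b (x * t)) ∂μ‖ ≤
        ∫ t, ‖k t‖ * (ε / (I + 1)) ∂μ := by
      refine norm_integral_le_of_norm_le (hki.norm.mul_const _) (Eventually.of_forall fun t => ?_)
      by_cases ht : t ∈ tsupport k
      · rw [← smul_sub, norm_smul]
        gcongr
        have h4 := h1 _ (h2 y hy t ht) (x * t)
        have e2 : x * t * (t⁻¹ * y * t) = x * y * t := by group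
        rwa [e2] at h4
      · rw [image_eq_zero_of_notMem_tsupport ht]
        simp
    rw [integral_mul_const] at h3
    refine h3.trans ?_
    calc I * (ε / (I + 1)) ≤ (I + 1) * (ε / (I + 1)) := by gcongr; linarith
      _ = ε := by field_simp

theorem ACont.smear [IsFiniteMeasureOnCompacts μ] (hb : ACont κ V b) (hbc : Continuous b)
    (hk : Continuous k) (hks : HasCompactSupport k) : ACont κ V (smear μ k b) := fun ε hε => by
  set I : ℝ := ∫ t, ‖k t‖ ∂μ with hI
  have hI0 : 0 ≤ I := integral_nonneg fun _ => norm_nonneg _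
  have hki : Integrable k μ := hk.integrable_of_hasCompactSupport hks
  obtain ⟨U, hU, h1⟩ := hb (ε / (I + 1)) (by positivity)
  refine ⟨U, hU, fun v hv x => ?_⟩
  have c1 : Continuous fun t => V v * b t := continuous_const.mul hbc
  have c2 : Continuous fun t => V v * b t * V v⁻¹ := c1.mul continuous_const
  have e : V v * Sm.smear μ k b x * V v⁻¹ - Sm.smear μ k b x =
      ∫ t, (k t • (V v * b (x * t) * V v⁻¹) - k t • b (x * t)) ∂μ := by
    rw [smear_mul_left _ hk hks hbc]
    have h2 : ∫ t, k t • (V v * b (x * t)) ∂μ = Sm.smear μ k (fun t => V v * b t) x := rfl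
    rw [h2, smear_mul_right _ hk hks c1]
    exact (integral_sub (smear_integrable (μ := μ) hk hks c2 x)
      (smear_integrable (μ := μ) hk hks hbc x)).symm
  rw [e]
  have h3 : ‖∫ t, (k t • (V v * b (x * t) * V v⁻¹) - k t • b (x * t)) ∂μ‖ ≤
      ∫ t, ‖k t‖ * (ε / (I + 1)) ∂μ := by
    refine norm_integral_le_of_norm_le (hki.norm.mul_const _) (Eventually.of_forall fun t => ?_)
    rw [← smul_sub, norm_smul]
    gcongr
    exact h1 v hv _
  rw [integral_mul_const] at h3
  refine h3.trans ?_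
  calc I * (ε / (I + 1)) ≤ (I + 1) * (ε / (I + 1)) := by gcongr; linarith
    _ = ε := by field_simp

/-- The smeared field is square integrable. -/
theorem nsq_smear_le [IsFiniteMeasureOnCompacts μ] [μ.IsMulRightInvariant] [SFinite μ]
    (hk : Continuous k) (hks : HasCompactSupport k) (hb : Continuous b) :
    nsq ω μ (smear μ k b) ≤ (∫⁻ t, ‖k t‖ₑ ^ 2 ∂μ) * (μ (tsupport k) * nsq ω μ b) := by
  have hSm : MeasurableSet (tsupport k) := (isClosed_tsupport k).measurableSet
  set A : ℝ≥0∞ := ∫⁻ t, ‖k t‖ₑ ^ 2 ∂μ with hA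
  have h1 : nsq ω μ (smear μ k b) ≤
      ∫⁻ g, A * ∫⁻ t, (tsupport k).indicator (fun t => ‖b (g * t) ω‖ₑ ^ 2) t ∂μ ∂μ :=
    lintegral_mono fun g => enorm_smear_sq_le hk hks hb hSm
      (fun t ht => image_eq_zero_of_notMem_tsupport ht) g ω
  refine h1.trans ?_
  have hc : Continuous fun p : G × G => b (p.1 * p.2) ω :=
    (hb.comp (by fun_prop : Continuous fun p : G × G => p.1 * p.2)).clm_apply continuous_const
  have hm : Measurable fun p : G × G =>
      (tsupport k).indicator (fun t => ‖b (p.1 * t) ω‖ₑ ^ 2) p.2 := by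
    have e : (fun p : G × G => (tsupport k).indicator (fun t => ‖b (p.1 * t) ω‖ₑ ^ 2) p.2) =
        (Prod.snd ⁻¹' tsupport k).indicator fun p : G × G => ‖b (p.1 * p.2) ω‖ₑ ^ 2 := by
      funext p
      by_cases hp : p.2 ∈ tsupport k
      · rw [Set.indicator_of_mem hp, Set.indicator_of_mem (by exact hp)]
      · rw [Set.indicator_of_notMem hp, Set.indicator_of_notMem (by exact hp)]
    rw [e]
    exact ((hc.enorm.measurable).pow_const 2).indicator (measurable_snd hSm)
  rw [lintegral_const_mul _ hm.lintegral_prod_right', lintegral_lintegral_swap hm.aemeasurable]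
  refine mul_le_mul_right ?_ _
  have e1 : ∀ t, ∫⁻ g, (tsupport k).indicator (fun t => ‖b (g * t) ω‖ₑ ^ 2) t ∂μ =
      (tsupport k).indicator (fun _ => nsq ω μ b) t := fun t => by
    by_cases ht : t ∈ tsupport k
    · simp only [Set.indicator_of_mem ht]
      exact nsq_rt b t
    · simp only [Set.indicator_of_notMem ht, lintegral_zero]
  rw [lintegral_congr e1, lintegral_indicator hSm, setLIntegral_const, mul_comm]

theorem L2.smear [IsFiniteMeasureOnCompacts μ] [μ.IsMulRightInvariant] [SFinite μ]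
    (hb : Fd ι ρ b) (h2 : L2 ω μ b) (hk : Continuous k) (hks : HasCompactSupport k) :
    L2 ω μ (smear μ k b) := by
  refine l2_of_nsq (hb.smear hk hks).continuous ((nsq_smear_le hk hks hb.continuous).trans_lt ?_)
  exact ENNReal.mul_lt_top (lintegral_sq_lt_top (hk.memLp_of_hasCompactSupport hks))
    (ENNReal.mul_lt_top hks.measure_lt_top (nsq_lt_top h2))

theorem Smo.smear [IsFiniteMeasureOnCompacts μ] [μ.IsMulRightInvariant] [SFinite μ]
    (hb : Smo ι κ ρ V ω μ b) (hk : Continuous k) (hks : HasCompactSupport k) :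
    Smo ι κ ρ V ω μ (smear μ k b) :=
  ⟨hb.toFd.smear hk hks, ACont.smear hb.acont hb.toFd.continuous hk hks,
    L2.smear hb.toFd hb.l2 hk hks⟩

/-- Some smearing of a field which is nonzero at `g` is nonzero at `g`. -/
theorem exists_smear_ne [IsFiniteMeasureOnCompacts μ] [LocallyCompactSpace G]
    [μ.IsOpenPosMeasure] (hb : Continuous b) {g : G} (hg : b g ≠ 0) :
    ∃ k : G → ℂ, Continuous k ∧ HasCompactSupport k ∧ smear μ k b g ≠ 0 := by
  have hpos : 0 < ‖b g‖ := norm_pos_iff.2 hg
  have hc : Continuous fun t => b (g * t) := hb.comp (by fun_prop)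
  have h1 : ∀ᶠ t in 𝓝 (1 : G), ‖b (g * t) - b g‖ < ‖b g‖ / 2 := by
    have h2 := (hc.tendsto 1).sub_const (b g)
    rw [mul_one, sub_self] at h2
    have h3 := h2.norm
    rw [norm_zero] at h3
    exact h3.eventually (gt_mem_nhds (by positivity))
  obtain ⟨O, hO, hOo, hO1⟩ := mem_nhds_iff.1 h1
  obtain ⟨f, hf1, hf2, hfs, hf01⟩ := exists_continuous_one_zero_of_isCompact
    (isCompact_singleton (x := (1 : G))) hOo.isClosed_compl
    (Set.disjoint_singleton_left.2 (fun h => h hO1))
  have hfI : 0 < ∫ t, f t ∂μ := by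
    refine f.continuous.integral_pos_of_hasCompactSupport_nonneg_nonzero hfs
      (fun t => (hf01 t).1) (x := 1) ?_
    rw [hf1 rfl]
    exact one_ne_zero
  have hk : Continuous fun t => ((f t : ℝ) : ℂ) := Complex.continuous_ofReal.comp f.continuous
  have hks : HasCompactSupport fun t => ((f t : ℝ) : ℂ) :=
    hfs.comp_left (g := fun x : ℝ => (x : ℂ)) Complex.ofReal_zero
  refine ⟨_, hk, hks, fun h0 => ?_⟩
  have hfi : Integrable f μ := f.continuous.integrable_of_hasCompactSupport hfs
  have i1 := smear_integrable (μ := μ) hk hks hb g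
  have i2 : Integrable (fun t => ((f t : ℝ) : ℂ) • b g) μ :=
    (hfi.ofReal (𝕜 := ℂ)).smul_const (b g)
  have e1 : smear μ (fun t => ((f t : ℝ) : ℂ)) b g - ∫ t, ((f t : ℝ) : ℂ) • b g ∂μ =
      ∫ t, (((f t : ℝ) : ℂ) • b (g * t) - ((f t : ℝ) : ℂ) • b g) ∂μ := (integral_sub i1 i2).symm
  have e2 : ‖∫ t, (((f t : ℝ) : ℂ) • b (g * t) - ((f t : ℝ) : ℂ) • b g) ∂μ‖ ≤
      ∫ t, f t * (‖b g‖ / 2) ∂μ := by
    refine norm_integral_le_of_norm_le (hfi.mul_const _) (Eventually.of_forall fun t => ?_)
    rw [← smul_sub, norm_smul, Complex.norm_real, Real.norm_of_nonneg (hf01 t).1]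
    by_cases ht : t ∈ O
    · exact mul_le_mul_of_nonneg_left (hO ht).le (hf01 t).1
    · rw [hf2 ht]
      simp
  rw [h0, zero_sub] at e1
  rw [← e1, norm_neg, integral_mul_const, integral_smul_const, norm_smul] at e2
  have e3 : ‖∫ t, ((f t : ℝ) : ℂ) ∂μ‖ = ∫ t, f t ∂μ := by
    rw [integral_complex_ofReal, Complex.norm_real, Real.norm_of_nonneg hfI.le]
  rw [e3] at e2
  nlinarith

end smear

end Vale.Agent.P092.H156.Sm
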