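import Vale.Agent.P092.H156.Hs2

/-!
P092 (helper156), team A, [GLUE-HS] part 3: two places.
-/

set_option linter.all false

open scoped InnerProductSpace Topology ENNReal Pointwise
open Filter ContinuousLinearMap MeasureTheory
open Vale.Agent.P092.H160

namespace Vale.Agent.P092.H156.Sm

section two

variable {Γ Λ G₁ G₂ K : Type} [Group Γ] [Group Λ] [Group G₁] [Group G₂] [Countable Γ]
  [TopologicalSpace G₁] [IsTopologicalGroup G₁] [MeasurableSpace G₁] [BorelSpace G₁]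
  [SecondCountableTopology G₁]
  [TopologicalSpace G₂] [IsTopologicalGroup G₂] [MeasurableSpace G₂] [BorelSpace G₂]
  [SecondCountableTopology G₂]
  [NormedAddCommGroup K] [InnerProductSpace ℂ K] [CompleteSpace K]
  {ρ : Γ →* (K →L[ℂ] K)} {V : Λ →* (K →L[ℂ] K)} {ω : K} {ι₁ : Γ →* G₁} {ι₂ : Γ →* G₂}
  {μ₁ : Measure G₁} {μ₂ : Measure G₂} {a : G₁ → K →L[ℂ] K} {b : G₂ → K →L[ℂ] K}
  {k₁ : G₁ → ℂ} {k₂ : G₂ → ℂ}

/-- The product field is equivariant. -/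
theorem prod_equiv (ha : Fd ι₁ ρ a) (hb : Fd ι₂ ρ b) (γ : Γ) (x : G₁ × G₂) :
    a ((ι₁.prod ι₂) γ * x).1 * b ((ι₁.prod ι₂) γ * x).2 = ρ γ * (a x.1 * b x.2) * ρ γ⁻¹ := by
  have h1 : ((ι₁.prod ι₂) γ * x).1 = ι₁ γ * x.1 := rfl
  have h2 : ((ι₁.prod ι₂) γ * x).2 = ι₂ γ * x.2 := rfl
  rw [h1, h2, ha.equiv, hb.equiv]
  calc ρ γ * a x.1 * ρ γ⁻¹ * (ρ γ * b x.2 * ρ γ⁻¹)
      = ρ γ * a x.1 * (ρ γ⁻¹ * ρ γ) * b x.2 * ρ γ⁻¹ := by simp only [mul_assoc]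
    _ = _ := by rw [rho_inv_mul, mul_one]; simp only [mul_assoc]

/-- The integral identity for two places, with `T4` for both as hypothesis. -/
theorem lintegral_two (ζ : K) (ha : ∀ η : K, ∫⁻ x, ‖a x η‖ₑ ^ 2 ∂μ₁ = nsq ω μ₁ a * ‖η‖ₑ ^ 2)
    (hb : ∀ η : K, ∫⁻ x, ‖b x η‖ₑ ^ 2 ∂μ₂ = nsq ω μ₂ b * ‖η‖ₑ ^ 2) (hN : nsq ω μ₁ a < ∞) :
    ∫⁻ y, ∫⁻ x, ‖(a x * b y) ζ‖ₑ ^ 2 ∂μ₁ ∂μ₂ = nsq ω μ₁ a * nsq ω μ₂ b * ‖ζ‖ₑ ^ 2 := by
  simp only [mul_ap, ha]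
  rw [lintegral_const_mul' _ _ hN.ne, hb, mul_assoc]

theorem nsq_prod_lt_top [SFinite μ₁] [SFinite μ₂] (hac : Continuous a) (hbc : Continuous b)
    (ha : ∀ η : K, ∫⁻ x, ‖a x η‖ₑ ^ 2 ∂μ₁ = nsq ω μ₁ a * ‖η‖ₑ ^ 2)
    (hb : ∀ η : K, ∫⁻ x, ‖b x η‖ₑ ^ 2 ∂μ₂ = nsq ω μ₂ b * ‖η‖ₑ ^ 2) (hN : nsq ω μ₁ a < ∞)
    (hM : nsq ω μ₂ b < ∞) :
    nsq ω (μ₁.prod μ₂) (fun x : G₁ × G₂ => a x.1 * b x.2) < ∞ := by
  have hc : Continuous fun x : G₁ × G₂ => (a x.1 * b x.2) ω :=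
    ((hac.comp continuous_fst).mul (hbc.comp continuous_snd)).clm_apply continuous_const
  unfold nsq
  rw [lintegral_prod_symm _ ((hc.enorm.measurable).pow_const 2).aemeasurable]
  rw [lintegral_two ω ha hb hN]
  exact ENNReal.mul_lt_top (ENNReal.mul_lt_top hN hM) (by simp)

/-- The smearing of a product with a product kernel is the product of the smearings. -/
theorem smear_prod [SFinite μ₁] [SFinite μ₂] [IsFiniteMeasureOnCompacts μ₁]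
    [IsFiniteMeasureOnCompacts μ₂] (hac : Continuous a) (hbc : Continuous b)
    (h1 : Continuous k₁) (h1s : HasCompactSupport k₁) (h2 : Continuous k₂)
    (h2s : HasCompactSupport k₂) (g : G₁ × G₂) :
    smear (μ₁.prod μ₂) (fun t : G₁ × G₂ => k₁ t.1 * k₂ t.2) (fun x => a x.1 * b x.2) g =
      smear μ₁ k₁ a g.1 * smear μ₂ k₂ b g.2 := by
  have i1 := smear_integrable (μ := μ₁) h1 h1s hac g.1
  have i2 := smear_integrable (μ := μ₂) h2 h2s hbc g.2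
  have hc : Continuous fun t : G₁ × G₂ => (k₁ t.1 * k₂ t.2) • (a (g * t).1 * b (g * t).2) := by
    have c1 : Continuous fun t : G₁ × G₂ => a (g * t).1 := hac.comp (by fun_prop)
    have c2 : Continuous fun t : G₁ × G₂ => b (g * t).2 := hbc.comp (by fun_prop)
    have c3 : Continuous fun t : G₁ × G₂ => k₁ t.1 * k₂ t.2 := by fun_prop
    exact c3.smul (c1.mul c2)
  have hs : HasCompactSupport fun t : G₁ × G₂ =>
      (k₁ t.1 * k₂ t.2) • (a (g * t).1 * b (g * t).2) := by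
    refine HasCompactSupport.of_support_subset_isCompact (h1s.prod h2s) fun t ht => ?_
    rw [Function.mem_support] at ht
    refine ⟨?_, ?_⟩
    · by_contra hn
      exact ht (by rw [image_eq_zero_of_notMem_tsupport hn, zero_mul, zero_smul])
    · by_contra hn
      exact ht (by rw [image_eq_zero_of_notMem_tsupport hn, mul_zero, zero_smul])
  have hi : Integrable (fun t : G₁ × G₂ => (k₁ t.1 * k₂ t.2) • (a (g * t).1 * b (g * t).2))
      (μ₁.prod μ₂) := hc.integrable_of_hasCompactSupport hs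
  unfold smear
  rw [integral_prod _ hi]
  have e1 : ∀ x : G₁, ∫ y, (k₁ (x, y).1 * k₂ (x, y).2) • (a (g * (x, y)).1 * b (g * (x, y)).2) ∂μ₂ =
      (k₁ x • a (g.1 * x)) * ∫ y, k₂ y • b (g.2 * y) ∂μ₂ := fun x => by
    rw [← integral_const_mul_of_integrable i2]
    refine integral_congr_ae (Eventually.of_forall fun y => ?_)
    show (k₁ x * k₂ y) • (a (g.1 * x) * b (g.2 * y)) = (k₁ x • a (g.1 * x)) * (k₂ y • b (g.2 * y))
    rw [smul_mul_smul_comm]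
  simp only [e1]
  rw [integral_mul_const_of_integrable i1]

/-- [GLUE-HS] -/
theorem smear_two_summable [SFinite μ₁] [SFinite μ₂] [IsFiniteMeasureOnCompacts μ₁]
    [IsFiniteMeasureOnCompacts μ₂] [μ₁.IsMulLeftInvariant] [μ₂.IsMulLeftInvariant]
    (h : RegRep ρ ω) (hp : ∀ C : Set (G₁ × G₂), IsCompact C → {γ | (ι₁ γ, ι₂ γ) ∈ C}.Finite)
    (ha : Fd ι₁ ρ a) (hb : Fd ι₂ ρ b)
    (hTa : ∀ η : K, ∫⁻ x, ‖a x η‖ₑ ^ 2 ∂μ₁ = nsq ω μ₁ a * ‖η‖ₑ ^ 2)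
    (hTb : ∀ η : K, ∫⁻ x, ‖b x η‖ₑ ^ 2 ∂μ₂ = nsq ω μ₂ b * ‖η‖ₑ ^ 2)
    (ha2 : L2 ω μ₁ a) (hb2 : L2 ω μ₂ b)
    (h1 : Continuous k₁) (h1s : HasCompactSupport k₁) (h2 : Continuous k₂)
    (h2s : HasCompactSupport k₂) (x : G₁) (y : G₂) :
    Summable fun γ => ‖smear μ₁ k₁ a x (smear μ₂ k₂ b y (ρ γ ω))‖ ^ 2 := by
  have hk : Continuous fun t : G₁ × G₂ => k₁ t.1 * k₂ t.2 := by fun_prop
  have hks : HasCompactSupport fun t : G₁ × G₂ => k₁ t.1 * k₂ t.2 := by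
    refine HasCompactSupport.of_support_subset_isCompact (h1s.prod h2s) fun t ht => ?_
    rw [Function.mem_support] at ht
    refine ⟨?_, ?_⟩
    · by_contra hn
      exact ht (by rw [image_eq_zero_of_notMem_tsupport hn, zero_mul])
    · by_contra hn
      exact ht (by rw [image_eq_zero_of_notMem_tsupport hn, mul_zero])
  have hc : Continuous fun x : G₁ × G₂ => a x.1 * b x.2 :=
    (ha.continuous.comp continuous_fst).mul (hb.continuous.comp continuous_snd)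
  have h3 := smear_summable (μ := μ₁.prod μ₂) (ι := ι₁.prod ι₂) h hp hk hks hc
    (fun γ x => prod_equiv ha hb γ x)
    (nsq_prod_lt_top ha.continuous hb.continuous hTa hTb (nsq_lt_top ha2) (nsq_lt_top hb2)) (x, y)
  rw [smear_prod ha.continuous hb.continuous h1 h1s h2 h2s] at h3
  exact h3

end two

end Vale.Agent.P092.H156.Sm
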