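import Vale.Agent.P092.H156.Sm

/-!
P092 (helper156), team A: the trace property and the orthogonality lemma for smooth fields.
-/

set_option linter.all false

open scoped InnerProductSpace Topology ENNReal
open Filter ContinuousLinearMap MeasureTheory
open Vale.Agent.P092.H160

namespace Vale.Agent.P092.H156.Sm

section tools

variable {X E : Type} [MeasurableSpace X] [NormedAddCommGroup E] [InnerProductSpace ℂ E]
  {μ : Measure X} {f g : X → E}

theorem integral_inner_toLp (hf : MemLp f 2 μ) (hg : MemLp g 2 μ) :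
    ∫ x, ⟪f x, g x⟫_ℂ ∂μ = ⟪hf.toLp f, hg.toLp g⟫_ℂ := by
  rw [MeasureTheory.L2.inner_def]
  refine integral_congr_ae ?_
  filter_upwards [hf.coeFn_toLp, hg.coeFn_toLp] with x h1 h2
  rw [h1, h2]

theorem integrable_inner_of_memLp (hf : MemLp f 2 μ) (hg : MemLp g 2 μ) :
    Integrable (fun x => ⟪f x, g x⟫_ℂ) μ := by
  refine (MeasureTheory.L2.integrable_inner (𝕜 := ℂ) (hf.toLp f) (hg.toLp g)).congr ?_
  filter_upwards [hf.coeFn_toLp, hg.coeFn_toLp] with x h1 h2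
  rw [h1, h2]

theorem lintegral_sq_lt_top (hf : MemLp f 2 μ) : ∫⁻ x, ‖f x‖ₑ ^ 2 ∂μ < ∞ := by
  have h1 := (eLpNorm_lt_top_iff_lintegral_rpow_enorm_lt_top two_ne_zero
    ENNReal.ofNat_ne_top).1 hf.2
  simpa using h1

theorem memLp_of_lintegral (hf : AEStronglyMeasurable f μ) (h : ∫⁻ x, ‖f x‖ₑ ^ 2 ∂μ < ∞) :
    MemLp f 2 μ := by
  refine ⟨hf, (eLpNorm_lt_top_iff_lintegral_rpow_enorm_lt_top two_ne_zero
    ENNReal.ofNat_ne_top).2 ?_⟩
  simpa using h

theorem integral_sq_eq (hf : MemLp f 2 μ) :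
    ∫ x, ‖f x‖ ^ 2 ∂μ = (∫⁻ x, ‖f x‖ₑ ^ 2 ∂μ).toReal := by
  have hm : AEStronglyMeasurable (fun x => ‖f x‖ ^ 2) μ := hf.1.norm.pow 2
  rw [integral_eq_lintegral_of_nonneg_ae (Eventually.of_forall fun x => by positivity) hm]
  congr 1
  refine lintegral_congr fun x => ?_
  rw [← ofReal_norm_eq_enorm, ENNReal.ofReal_pow (norm_nonneg _)]

theorem norm_sq_toLp (hf : MemLp f 2 μ) : ‖hf.toLp f‖ ^ 2 = ∫ x, ‖f x‖ ^ 2 ∂μ := by
  have h1 := integral_inner_toLp hf hf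
  rw [inner_self_eq_norm_sq_to_K] at h1
  have h2 : ∫ x, ⟪f x, f x⟫_ℂ ∂μ = ((∫ x, ‖f x‖ ^ 2 ∂μ : ℝ) : ℂ) := by
    rw [← integral_complex_ofReal]
    refine integral_congr_ae (Eventually.of_forall fun x => ?_)
    simp only [inner_self_eq_norm_sq_to_K]
    norm_cast
  rw [h2] at h1
  apply Complex.ofReal_injective
  rw [h1]
  push_cast
  rfl

theorem norm_integral_inner_le (hf : MemLp f 2 μ) (hg : MemLp g 2 μ) :
    ‖∫ x, ⟪f x, g x⟫_ℂ ∂μ‖ ≤ ‖hf.toLp f‖ * ‖hg.toLp g‖ := by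
  rw [integral_inner_toLp hf hg]
  exact norm_inner_le_norm _ _

/-- Polarization for integrals. -/
theorem integral_inner_polar (hf : MemLp f 2 μ) (hg : MemLp g 2 μ) :
    ∫ x, ⟪f x, g x⟫_ℂ ∂μ =
      (((∫ x, ‖f x + g x‖ ^ 2 ∂μ : ℝ) : ℂ) - ((∫ x, ‖f x - g x‖ ^ 2 ∂μ : ℝ) : ℂ) +
      (((∫ x, ‖f x - Complex.I • g x‖ ^ 2 ∂μ : ℝ) : ℂ) -
        ((∫ x, ‖f x + Complex.I • g x‖ ^ 2 ∂μ : ℝ) : ℂ)) * Complex.I) / 4 := by
  rw [integral_inner_toLp hf hg, inner_eq_sum_norm_sq_div_four]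
  have e1 : hf.toLp f + hg.toLp g = (hf.add hg).toLp (f + g) := (MemLp.toLp_add hf hg).symm
  have e2 : hf.toLp f - hg.toLp g = (hf.sub hg).toLp (f - g) := (MemLp.toLp_sub hf hg).symm
  have hgI : MemLp (Complex.I • g) 2 μ := hg.const_smul Complex.I
  have e0 : Complex.I • hg.toLp g = hgI.toLp (Complex.I • g) :=
    (MemLp.toLp_const_smul Complex.I hg).symm
  have e3 : hf.toLp f + Complex.I • hg.toLp g = (hf.add hgI).toLp (f + Complex.I • g) := by
    rw [e0]; exact (MemLp.toLp_add hf hgI).symm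
  have e4 : hf.toLp f - Complex.I • hg.toLp g = (hf.sub hgI).toLp (f - Complex.I • g) := by
    rw [e0]; exact (MemLp.toLp_sub hf hgI).symm
  have f1 := norm_sq_toLp (hf.add hg)
  have f2 := norm_sq_toLp (hf.sub hg)
  have f3 := norm_sq_toLp (hf.add hgI)
  have f4 := norm_sq_toLp (hf.sub hgI)
  simp only [RCLike.I_to_complex] at *
  rw [e1, e2, e3, e4]
  simp only [Pi.add_apply, Pi.sub_apply, Pi.smul_apply] at f1 f2 f3 f4
  rw [← f1, ← f2, ← f3, ← f4]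
  push_cast
  rfl

end tools

section trace

variable {Γ Λ G H K : Type} [Group Γ] [Group Λ] [Group G] [Group H] [Countable Γ]
  [TopologicalSpace G] [TopologicalSpace H] [IsTopologicalGroup G] [IsTopologicalGroup H]
  [MeasurableSpace G] [BorelSpace G] [SecondCountableTopology G]
  [NormedAddCommGroup K] [InnerProductSpace ℂ K] [CompleteSpace K]
  {ρ : Γ →* (K →L[ℂ] K)} {V : Λ →* (K →L[ℂ] K)} {ω : K} {ι : Γ →* G} {κ : Λ →* H}
  {μ : Measure G} {a b : G → K →L[ℂ] K}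

/-- Parseval in `ℝ≥0∞`. -/
theorem parseval (h : RegRep ρ ω) (v : K) : ‖v‖ₑ ^ 2 = ∑' γ, ‖⟪ρ γ ω, v⟫_ℂ‖ₑ ^ 2 := by
  have h1 := h.hasSum_inner v v
  have h2 : HasSum (fun γ => ‖⟪ρ γ ω, v⟫_ℂ‖ ^ 2) (‖v‖ ^ 2) := by
    have h3 := Complex.hasSum_re h1
    convert h3 using 1
    · funext γ
      rw [← inner_conj_symm v, ← Complex.normSq_eq_conj_mul_self, Complex.ofReal_re,
        Complex.normSq_eq_norm_sq]
    · rw [inner_self_eq_norm_sq_to_K]
      norm_cast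
  have h4 : ∀ γ, ‖⟪ρ γ ω, v⟫_ℂ‖ₑ ^ 2 = ENNReal.ofReal (‖⟪ρ γ ω, v⟫_ℂ‖ ^ 2) := fun γ => by
    rw [← ofReal_norm_eq_enorm, ENNReal.ofReal_pow (norm_nonneg _)]
  simp_rw [h4]
  rw [← ENNReal.ofReal_tsum_of_nonneg (fun _ => by positivity) h2.summable, h2.tsum_eq,
    ← ofReal_norm_eq_enorm, ENNReal.ofReal_pow (norm_nonneg _)]

theorem coeff_adj (h : RegRep ρ ω) (he : ∀ γ x, b (ι γ * x) = ρ γ * b x * ρ γ⁻¹) (γ : Γ) (x : G) :
    ‖⟪ρ γ ω, b x ω⟫_ℂ‖ₑ = ‖⟪ρ γ⁻¹ ω, adjoint (b (ι γ⁻¹ * x)) ω⟫_ℂ‖ₑ := by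
  rw [he, inv_inv]
  have e : adjoint (ρ γ⁻¹ * b x * ρ γ) = ρ γ⁻¹ * adjoint (b x) * ρ γ := by
    change star (ρ γ⁻¹ * b x * ρ γ) = _
    rw [star_mul, star_mul, star_eq_adjoint (ρ γ), h.adj, star_eq_adjoint (ρ γ⁻¹), h.adj,
      inv_inv, star_eq_adjoint, mul_assoc]
  rw [e, mul_ap, mul_ap, h.inner_map, adjoint_inner_right]
  rw [← inner_conj_symm, ← ofReal_norm_eq_enorm, ← ofReal_norm_eq_enorm, RCLike.norm_conj]

/-- The trace property. -/
theorem nsq_adj [μ.IsMulLeftInvariant] (h : RegRep ρ ω) (hb : Continuous b)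
    (he : ∀ γ x, b (ι γ * x) = ρ γ * b x * ρ γ⁻¹) :
    nsq ω μ (fun x => adjoint (b x)) = nsq ω μ b := by
  unfold nsq
  have hb' : Continuous fun x => adjoint (b x) :=
    (adjoint : (K →L[ℂ] K) ≃ₗᵢ⋆[ℂ] (K →L[ℂ] K)).continuous.comp hb
  have m1 : ∀ u : K, Measurable fun x => ‖⟪u, b x ω⟫_ℂ‖ₑ ^ 2 := fun u => by
    have : Continuous fun x => ⟪u, b x ω⟫_ℂ :=
      continuous_const.inner (hb.clm_apply continuous_const)
    exact (this.enorm.measurable).pow_const 2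
  have m2 : ∀ u : K, Measurable fun x => ‖⟪u, adjoint (b x) ω⟫_ℂ‖ₑ ^ 2 := fun u => by
    have : Continuous fun x => ⟪u, adjoint (b x) ω⟫_ℂ :=
      continuous_const.inner (hb'.clm_apply continuous_const)
    exact (this.enorm.measurable).pow_const 2
  have e1 : ∫⁻ x, ‖b x ω‖ₑ ^ 2 ∂μ = ∑' γ, ∫⁻ x, ‖⟪ρ γ ω, b x ω⟫_ℂ‖ₑ ^ 2 ∂μ := by
    rw [← lintegral_tsum fun γ => (m1 _).aemeasurable]
    exact lintegral_congr fun x => parseval h _
  have e2 : ∫⁻ x, ‖adjoint (b x) ω‖ₑ ^ 2 ∂μ =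
      ∑' γ, ∫⁻ x, ‖⟪ρ γ ω, adjoint (b x) ω⟫_ℂ‖ₑ ^ 2 ∂μ := by
    rw [← lintegral_tsum fun γ => (m2 _).aemeasurable]
    exact lintegral_congr fun x => parseval h _
  rw [e1, e2, ← (Equiv.inv Γ).tsum_eq]
  refine tsum_congr fun γ => ?_
  have e3 : ∫⁻ x, ‖⟪ρ γ ω, b x ω⟫_ℂ‖ₑ ^ 2 ∂μ =
      ∫⁻ x, ‖⟪ρ γ⁻¹ ω, adjoint (b (ι γ⁻¹ * x)) ω⟫_ℂ‖ₑ ^ 2 ∂μ :=
    lintegral_congr fun x => by rw [coeff_adj h he]
  rw [e3]
  exact (lintegral_mul_left_eq_self (μ := μ)
    (fun x => ‖⟪ρ γ⁻¹ ω, adjoint (b x) ω⟫_ℂ‖ₑ ^ 2) (ι γ⁻¹)).symm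

/-! ### membership in `L2` -/

theorem nsq_lt_top (hb : L2 ω μ b) : nsq ω μ b < ∞ := lintegral_sq_lt_top hb

theorem l2_of_nsq (hb : Continuous b) (h : nsq ω μ b < ∞) : L2 ω μ b :=
  memLp_of_lintegral (hb.clm_apply continuous_const).aestronglyMeasurable h

theorem integral_sq (hb : L2 ω μ b) : ∫ x, ‖b x ω‖ ^ 2 ∂μ = (nsq ω μ b).toReal :=
  integral_sq_eq hb

theorem norm_toLp_sq (hb : L2 ω μ b) : ‖MemLp.toLp _ hb‖ ^ 2 = (nsq ω μ b).toReal := by
  rw [norm_sq_toLp, integral_sq hb]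

theorem nsq_mono {C : ℝ} (hC : 0 ≤ C) (h : ∀ x, ‖a x ω‖ ≤ C * ‖b x ω‖) :
    nsq ω μ a ≤ ENNReal.ofReal C ^ 2 * nsq ω μ b := by
  unfold nsq
  rw [← lintegral_const_mul' _ _ (by simp)]
  refine lintegral_mono fun x => ?_
  rw [← mul_pow]
  gcongr
  rw [← ofReal_norm_eq_enorm, ← ofReal_norm_eq_enorm, ← ENNReal.ofReal_mul hC]
  exact ENNReal.ofReal_le_ofReal (h x)

theorem nsq_mul_left {C : ℝ} (hC : ∀ x, ‖a x‖ ≤ C) :
    nsq ω μ (fun x => a x * b x) ≤ ENNReal.ofReal C ^ 2 * nsq ω μ b := by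
  by_cases hG : Nonempty G
  · obtain ⟨x0⟩ := hG
    have h0 : 0 ≤ C := (norm_nonneg _).trans (hC x0)
    exact nsq_mono h0 fun x => by
      rw [mul_ap]
      exact (le_opNorm (a x) _).trans (mul_le_mul_of_nonneg_right (hC x) (norm_nonneg _))
  · exact absurd ⟨(1 : G)⟩ hG

theorem nsq_mul_right [μ.IsMulLeftInvariant] (h : RegRep ρ ω) (ha : Fd ι ρ a) (hb : Fd ι ρ b)
    {C : ℝ} (hC : ∀ x, ‖b x‖ ≤ C) :
    nsq ω μ (fun x => a x * b x) ≤ ENNReal.ofReal C ^ 2 * nsq ω μ a := by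
  have h1 := nsq_adj (μ := μ) h (ha.mul hb).continuous (ha.mul hb).equiv
  rw [← h1, ← nsq_adj (μ := μ) h ha.continuous ha.equiv]
  have h2 : (fun x => adjoint (a x * b x)) = fun x => adjoint (b x) * adjoint (a x) := by
    funext x
    change star (a x * b x) = _
    rw [star_mul]
    rfl
  rw [h2]
  exact nsq_mul_left fun x => by rw [LinearIsometryEquiv.norm_map]; exact hC x

theorem L2.zero : L2 ω μ (fun _ : G => (0 : K →L[ℂ] K)) := by
  unfold L2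
  simp only [zero_apply]
  exact MemLp.zero'

theorem L2.add (ha : L2 ω μ a) (hb : L2 ω μ b) : L2 ω μ (fun x => a x + b x) :=
  MemLp.add ha hb

theorem L2.smul (c : ℂ) (hb : L2 ω μ b) : L2 ω μ (fun x => c • b x) :=
  MemLp.const_smul hb c

theorem L2.neg (hb : L2 ω μ b) : L2 ω μ (fun x => - b x) := MemLp.neg hb

theorem L2.sub (ha : L2 ω μ a) (hb : L2 ω μ b) : L2 ω μ (fun x => a x - b x) :=
  MemLp.sub ha hb

theorem L2.adj [μ.IsMulLeftInvariant] (h : RegRep ρ ω) (hb : Fd ι ρ b) (h2 : L2 ω μ b) :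
    L2 ω μ (fun x => adjoint (b x)) :=
  l2_of_nsq (hb.adj h).continuous (by
    rw [nsq_adj h hb.continuous hb.equiv]; exact nsq_lt_top h2)

theorem L2.mul_left (ha : Continuous a) (hb : Continuous b) (ba : ∃ C, ∀ x, ‖a x‖ ≤ C)
    (h2 : L2 ω μ b) : L2 ω μ (fun x => a x * b x) := by
  obtain ⟨C, hC⟩ := ba
  refine l2_of_nsq (ha.mul hb) ((nsq_mul_left hC).trans_lt ?_)
  exact ENNReal.mul_lt_top (by simp) (nsq_lt_top h2)

theorem L2.mul_right [μ.IsMulLeftInvariant] (h : RegRep ρ ω) (ha : Fd ι ρ a) (hb : Fd ι ρ b)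
    (h2 : L2 ω μ a) : L2 ω μ (fun x => a x * b x) := by
  obtain ⟨C, hC⟩ := hb.bdd
  refine l2_of_nsq (ha.mul hb).continuous ((nsq_mul_right h ha hb hC).trans_lt ?_)
  exact ENNReal.mul_lt_top (by simp) (nsq_lt_top h2)

theorem L2.lm (hb : Fd ι ρ b) (h2 : L2 ω μ b) (m : K →L[ℂ] K) : L2 ω μ (fun x => m * b x) :=
  L2.mul_left continuous_const hb.continuous ⟨‖m‖, fun _ => le_rfl⟩ h2

theorem L2.rm [μ.IsMulLeftInvariant] (h : RegRep ρ ω) (hb : Fd ι ρ b) (h2 : L2 ω μ b)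
    {m : K →L[ℂ] K} (hm : Cmm ρ m) : L2 ω μ (fun x => b x * m) :=
  L2.mul_right h hb (Fd.const h hm) h2

theorem L2.conj [μ.IsMulLeftInvariant] (h : Frm ρ V ω) (hb : Fd ι ρ b) (h2 : L2 ω μ b) (v : Λ) :
    L2 ω μ (fun x => V v * b x * V v⁻¹) :=
  L2.rm h.reg (hb.lm h.reg (h.comm v)) (L2.lm hb h2 _) (h.comm v⁻¹)

theorem nsq_rt [μ.IsMulRightInvariant] (b : G → K →L[ℂ] K) (z : G) :
    nsq ω μ (fun x => b (x * z)) = nsq ω μ b :=
  lintegral_mul_right_eq_self (μ := μ) (fun x => ‖b x ω‖ₑ ^ 2) z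

theorem L2.rt [μ.IsMulRightInvariant] (hb : Fd ι ρ b) (h2 : L2 ω μ b) (z : G) :
    L2 ω μ (fun x => b (x * z)) :=
  l2_of_nsq (hb.rt z).continuous (by rw [nsq_rt]; exact nsq_lt_top h2)

theorem nsq_lV (h : Frm ρ V ω) (v : Λ) : nsq ω μ (fun x => V v * b x) = nsq ω μ b := by
  unfold nsq
  refine lintegral_congr fun x => ?_
  rw [mul_ap, ← ofReal_norm_eq_enorm, h.norm_map, ofReal_norm_eq_enorm]

theorem nsq_rV [μ.IsMulLeftInvariant] (h : Frm ρ V ω) (hb : Fd ι ρ b) (v : Λ) :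
    nsq ω μ (fun x => b x * V v) = nsq ω μ b := by
  have hb' := hb.rm h.reg (h.comm v)
  rw [← nsq_adj (μ := μ) h.reg hb'.continuous hb'.equiv,
    ← nsq_adj (μ := μ) h.reg hb.continuous hb.equiv]
  have h2 : (fun x => adjoint (b x * V v)) = fun x => V v⁻¹ * adjoint (b x) := by
    funext x
    change star (b x * V v) = _
    rw [star_mul, star_eq_adjoint (V v), h.adj]
    rfl
  rw [h2, nsq_lV h]

theorem nsq_conj [μ.IsMulLeftInvariant] (h : Frm ρ V ω) (hb : Fd ι ρ b) (v : Λ) :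
    nsq ω μ (fun x => V v * b x * V v⁻¹) = nsq ω μ b := by
  rw [nsq_rV h (hb.lm h.reg (h.comm v)), nsq_lV h]

/-! ### the inner product -/

theorem integrable_ip (ha : L2 ω μ a) (hb : L2 ω μ b) :
    Integrable (fun x => ⟪a x ω, b x ω⟫_ℂ) μ := integrable_inner_of_memLp ha hb

theorem ip_conj_symm (a b : G → K →L[ℂ] K) :
    (starRingEnd ℂ) (ip ω μ a b) = ip ω μ b a := by
  unfold ip
  rw [← integral_conj]
  exact integral_congr_ae (Eventually.of_forall fun x => inner_conj_symm _ _)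

theorem ip_self (hb : L2 ω μ b) : ip ω μ b b = ((nsq ω μ b).toReal : ℂ) := by
  unfold ip
  rw [← integral_sq hb, ← integral_complex_ofReal]
  refine integral_congr_ae (Eventually.of_forall fun x => ?_)
  simp only [inner_self_eq_norm_sq_to_K]
  norm_cast

theorem norm_ip_le (ha : L2 ω μ a) (hb : L2 ω μ b) :
    ‖ip ω μ a b‖ ^ 2 ≤ (nsq ω μ a).toReal * (nsq ω μ b).toReal := by
  rw [← norm_toLp_sq ha, ← norm_toLp_sq hb, ← mul_pow]
  have := norm_integral_inner_le ha hb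
  gcongr
  exact this

theorem ip_add_right {c : G → K →L[ℂ] K} (ha : L2 ω μ a) (hb : L2 ω μ b) (hc : L2 ω μ c) :
    ip ω μ a (fun x => b x + c x) = ip ω μ a b + ip ω μ a c := by
  unfold ip
  rw [← integral_add (integrable_ip ha hb) (integrable_ip ha hc)]
  exact integral_congr_ae (Eventually.of_forall fun x => by
    simp only [add_apply, inner_add_right])

theorem ip_add_left {c : G → K →L[ℂ] K} (ha : L2 ω μ a) (hb : L2 ω μ b) (hc : L2 ω μ c) :
    ip ω μ (fun x => a x + b x) c = ip ω μ a c + ip ω μ b c := by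
  unfold ip
  rw [← integral_add (integrable_ip ha hc) (integrable_ip hb hc)]
  exact integral_congr_ae (Eventually.of_forall fun x => by
    simp only [add_apply, inner_add_left])

theorem ip_smul_right (z : ℂ) : ip ω μ a (fun x => z • b x) = z * ip ω μ a b := by
  unfold ip
  rw [← integral_const_mul]
  exact integral_congr_ae (Eventually.of_forall fun x => by
    simp only [smul_apply, inner_smul_right])

theorem ip_smul_left (z : ℂ) :
    ip ω μ (fun x => z • a x) b = (starRingEnd ℂ) z * ip ω μ a b := by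
  unfold ip
  rw [← integral_const_mul]
  exact integral_congr_ae (Eventually.of_forall fun x => by
    simp only [smul_apply, inner_smul_left])

theorem ip_sub_right {c : G → K →L[ℂ] K} (ha : L2 ω μ a) (hb : L2 ω μ b) (hc : L2 ω μ c) :
    ip ω μ a (fun x => b x - c x) = ip ω μ a b - ip ω μ a c := by
  unfold ip
  rw [← integral_sub (integrable_ip ha hb) (integrable_ip ha hc)]
  exact integral_congr_ae (Eventually.of_forall fun x => by
    simp only [sub_apply, inner_sub_right])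

/-- The trace property for the inner product. -/
theorem ip_adj [μ.IsMulLeftInvariant] (h : RegRep ρ ω) (ha : Fd ι ρ a) (hb : Fd ι ρ b)
    (ha2 : L2 ω μ a) (hb2 : L2 ω μ b) :
    ip ω μ (fun x => adjoint (b x)) (fun x => adjoint (a x)) = ip ω μ a b := by
  have ha2' := L2.adj h ha ha2
  have hb2' := L2.adj h hb hb2
  have key : ∀ c : G → K →L[ℂ] K, Fd ι ρ c → L2 ω μ c →
      ∫ x, ‖adjoint (c x) ω‖ ^ 2 ∂μ = ∫ x, ‖c x ω‖ ^ 2 ∂μ := fun c hc hc2 => by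
    rw [integral_sq hc2, integral_sq (L2.adj h hc hc2), nsq_adj h hc.continuous hc.equiv]
  have hsm : ∀ z : ℂ, ∀ A : K →L[ℂ] K, adjoint (z • A) = (starRingEnd ℂ) z • adjoint A :=
    fun z A => by rw [map_smulₛₗ]
  unfold ip
  rw [integral_inner_polar hb2' ha2', integral_inner_polar ha2 hb2]
  have k1 := key _ (ha.add hb) (ha2.add hb2)
  have k2 := key _ (ha.sub hb) (ha2.sub hb2)
  have k3 := key _ (ha.sub (hb.smul Complex.I)) (ha2.sub (hb2.smul Complex.I))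
  have k4 := key _ (ha.add (hb.smul Complex.I)) (ha2.add (hb2.smul Complex.I))
  simp only [map_add, map_sub, hsm, Complex.conj_I, neg_smul, sub_neg_eq_add] at k1 k2 k3 k4
  have e1 : ∫ x, ‖adjoint (b x) ω + adjoint (a x) ω‖ ^ 2 ∂μ = ∫ x, ‖a x ω + b x ω‖ ^ 2 ∂μ := by
    simp only [add_apply] at k1
    rw [← k1]
    exact integral_congr_ae (Eventually.of_forall fun x => by simp only [add_comm])
  have e2 : ∫ x, ‖adjoint (b x) ω - adjoint (a x) ω‖ ^ 2 ∂μ = ∫ x, ‖a x ω - b x ω‖ ^ 2 ∂μ := by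
    simp only [sub_apply] at k2
    rw [← k2]
    exact integral_congr_ae (Eventually.of_forall fun x => by simp only [norm_sub_rev])
  have e3 : ∫ x, ‖adjoint (b x) ω - Complex.I • adjoint (a x) ω‖ ^ 2 ∂μ =
      ∫ x, ‖a x ω - Complex.I • b x ω‖ ^ 2 ∂μ := by
    simp only [sub_apply, add_apply, smul_apply] at k3
    rw [← k3]
    refine integral_congr_ae (Eventually.of_forall fun x => ?_)
    have e : adjoint (b x) ω - Complex.I • adjoint (a x) ω =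
        (-Complex.I) • (adjoint (a x) ω + Complex.I • adjoint (b x) ω) := by
      rw [smul_add, smul_smul]
      simp only [neg_mul, Complex.I_mul_I, neg_neg, one_smul, neg_smul]
      abel
    simp only [e, norm_smul, norm_neg, Complex.norm_I, one_mul]
  have e4 : ∫ x, ‖adjoint (b x) ω + Complex.I • adjoint (a x) ω‖ ^ 2 ∂μ =
      ∫ x, ‖a x ω + Complex.I • b x ω‖ ^ 2 ∂μ := by
    simp only [sub_apply, add_apply, smul_apply, neg_apply] at k4
    rw [← k4]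
    refine integral_congr_ae (Eventually.of_forall fun x => ?_)
    have e : adjoint (b x) ω + Complex.I • adjoint (a x) ω =
        Complex.I • (adjoint (a x) ω + -(Complex.I • adjoint (b x) ω)) := by
      rw [smul_add, smul_neg, smul_smul]
      simp only [Complex.I_mul_I, neg_smul, neg_neg, one_smul]
      abel
    simp only [e, norm_smul, Complex.norm_I, one_mul]
  rw [e1, e2, e3, e4]

end trace

end Vale.Agent.P092.H156.Sm
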